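import Vale.Agent.P257.H709.AlgZero
import Vale.Agent.P251.B.Final

/-!
# P257 / H709: low dimensional homotopy of `S/p`

`D : MUData T`, `U` a cofibre of the unit of `D.R`, `C = S/p`, `p` odd.

* `pi_low` : `Hom (𝟙⟦j⟧, C) = 0` for `1 ≤ j ≤ 2 p - 4`.
-/

open CategoryTheory MonoidalCategory Limits Pretriangulated MonObj

universe v u

namespace Vale.Agent.P257.H709

open Vale.Agent.P251.T Vale.Agent.P251.M Vale.Agent.P251.S Vale.Agent.P251.F Vale.Agent.P251.I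
  Vale.Agent.P251.B

/-- In a couple, an element of `D^0_m` with zero image in `E^0_m` vanishes if the cohomology of
`E_1` vanishes in stem `m` from filtration `1` on and `D^N_m = 0`. -/
theorem Couple.eq_zero_of_van (K : Couple.{u, v}) {m : ℤ} (hv : ∀ s, K.Van s m) (N : ℕ)
    (hN : ∀ y : K.D (0 + N) m, y = 0) (y : K.D 0 m) (hy : K.j 0 m y = 0) : y = 0 := by
  obtain ⟨y', rfl⟩ := K.exact_j 0 m y hy
  obtain ⟨y'', hy''⟩ := K.exists_iN_eq (s := 0) (fun s _ => hv s) y' N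
  rw [← hy'', hN y'', map_zero]

variable {T : Type u} [Category.{v} T] [Preadditive T] [HasZeroObject T]
    [HasShift T ℤ] [∀ n : ℤ, (shiftFunctor T n).Additive] [Pretriangulated T]
    [MonoidalCategory T] [SymmetricCategory T] [TensorTriangulated T] [HasCoproducts.{0} T]

section

variable (D : MUData T) (U : UnitCof D.R) {p : ℕ} [Fact p.Prime] (hp : p ≠ 2)
  {C : T} {i : 𝟙_ T ⟶ C} {δ : C ⟶ (𝟙_ T)⟦(1 : ℤ)⟧}
  (hC : Triangle.mk ((p : ℤ) • 𝟙 (𝟙_ T)) i δ ∈ distTriang T)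

include hp hC

/-- Cocycles of degree zero of the cobar complex of `S/p` vanish. -/
theorem cocycle_zero_modP {t : ℤ}
    (hw : ∀ w : ℤ, t = 2 * w → ¬ (((p : ℤ) - 1) ∣ w ∧ 0 ≤ w))
    (c : (𝟙_ T)⟦t⟧ ⟶ (tensorRight C).obj (U.cobar.Q 1 (𝟙_ T)))
    (hc : c ≫ (tensorRight C).map (U.cobar.d 1 (𝟙_ T)) = 0) : c = 0 := by
  obtain ⟨w, rfl | rfl⟩ := Int.even_or_odd' t
  · have h1 : ((sphE T w).hom ≫ c) ≫ (U.cobar.d 1 (𝟙_ T) ▷ C) = 0 := by
      rw [Category.assoc]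
      exact (congrArg _ hc).trans comp_zero
    obtain ⟨z, hz⟩ := D.phi_red_surj U hp hC 0 w ((sphE T w).hom ≫ c)
    have hn : ∀ n : ℕ, U.cobar.d n (𝟙_ T) ≫ (redC i).app _ =
      (redC i).app _ ≫ (U.cobar.d n (𝟙_ T) ▷ C) := fun n => (redC i).naturality _
    have h2 : D.phi U 1 w (Cob.dwt Laz 0 w z) ≫ (redC i).app _ = 0 := by
      rw [D.phi_d U 0 w z, Category.assoc, hn, ← Category.assoc, ← hz, h1]
    obtain ⟨y, hy⟩ := D.phi_red_ker U hp hC 1 w _ h2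
    obtain ⟨u, hu, hzu⟩ := exists_of_cocycle_modP_zero p hp (hw w rfl) z.2 (y := y.1)
      (congrArg Subtype.val hy)
    have h3 : z = (p : ℤ) • (⟨u, hu⟩ : Cob.wt Laz 0 w) := Subtype.ext hzu
    have h4 : (sphE T w).hom ≫ c = 0 := by
      rw [hz, h3, map_zsmul, zsmul_comp_red hC]
    rw [← cancel_epi (sphE T w).hom, h4, comp_zero]
  · exact D.odd_red U hp hC 0 w c

/-- The elements of stem `t` map to zero in `π_t (R ⊗ S/p)`, if `t` is odd, negative or not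
divisible by `2 (p - 1)`. -/
theorem j_zero_modP {t : ℤ}
    (hw : ∀ w : ℤ, t = 2 * w → ¬ (((p : ℤ) - 1) ∣ w ∧ 0 ≤ w))
    (y : (((U.tow (𝟙_ T)).map (tensorRight C)).couple (𝟙_ T)).D 0 t) :
    (((U.tow (𝟙_ T)).map (tensorRight C)).couple (𝟙_ T)).j 0 t y = 0 := by
  have h : t + ((0 : ℕ) : ℤ) = t := by simp
  obtain ⟨c, hc, hcy⟩ := U.exists_cocycle_qE (𝟙_ T) (tensorRight C) (𝟙_ T) h _
    ((((U.tow (𝟙_ T)).map (tensorRight C)).couple (𝟙_ T)).isCocycle_j y)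
  rw [← hcy, cocycle_zero_modP D U hp hC hw c hc, map_zero]

end

section

variable {R : T} [MonObj R] (U : UnitCof R)

/-- Identification of `Hom (𝟙⟦t⟧, C)` with the group `D^0_t` of the tower of `C`. -/
noncomputable def toD (C : T) (t : ℤ) :
    ((𝟙_ T)⟦t⟧ ⟶ C) ≃+ (((U.tow (𝟙_ T)).map (tensorRight C)).couple (𝟙_ T)).D 0 t :=
  (AddMonoidHom.toAddEquiv
    (AddMonoidHom.mk' (fun f : (𝟙_ T)⟦t⟧ ⟶ C => f ≫ (λ_ C).inv)
      (fun _ _ => Preadditive.add_comp ..))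
    (AddMonoidHom.mk' (fun f : (𝟙_ T)⟦t⟧ ⟶ 𝟙_ T ⊗ C => f ≫ (λ_ C).hom)
      (fun _ _ => Preadditive.add_comp ..))
    (by ext f; simp) (by ext f; simp)).trans
  (((U.tow (𝟙_ T)).map (tensorRight C)).eD (𝟙_ T) (s := 0) (n := t) (t := t) (by simp)).symm

end

section

variable [MonoidalClosed T] [IsTriangulated T] [HasProducts.{0} T] [StableCat T]
  (D : MUData T) (U : UnitCof D.R) {p : ℕ} [Fact p.Prime] (hp : p ≠ 2)
  {C : T} {i : 𝟙_ T ⟶ C} {δ : C ⟶ (𝟙_ T)⟦(1 : ℤ)⟧}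
  (hC : Triangle.mk ((p : ℤ) • 𝟙 (𝟙_ T)) i δ ∈ distTriang T)

include hC in
omit [Fact p.Prime] in
/-- The groups `D^N_m` of the tower of `S/p` vanish for large `N`. -/
theorem D_eq_zero (m : ℤ) (N : ℕ) (hN : m < N)
    (y : (((U.tow (𝟙_ T)).map (tensorRight C)).couple (𝟙_ T)).D N m) : y = 0 :=
  conn_red hC (conn_B D U N) _ (by linarith) y

include hp hC

/-- Elements of stem `m` which are zero in `π_m (R ⊗ S/p)` vanish below the vanishing line. -/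
theorem eq_zero_of_j {m : ℤ} (hm : m < 2 * (p : ℤ) - 3) (hm0 : 0 ≤ m)
    (y : (((U.tow (𝟙_ T)).map (tensorRight C)).couple (𝟙_ T)).D 0 m)
    (hy : (((U.tow (𝟙_ T)).map (tensorRight C)).couple (𝟙_ T)).j 0 m y = 0) : y = 0 := by
  refine Couple.eq_zero_of_van _ (fun s => van_modP D U hp hC rfl fun w hw => ?_)
    (m.toNat + 1) (fun y => D_eq_zero D U hC m _ (by push_cast; omega) y) y hy
  rintro ⟨-, h2⟩
  have hp3 : (3 : ℤ) ≤ p := by
    have h1 := (Fact.out : p.Prime).two_le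
    have : 3 ≤ p := by omega
    exact_mod_cast this
  push_cast at hw
  nlinarith [mul_nonneg (show (0 : ℤ) ≤ s by positivity) (show (0 : ℤ) ≤ 2 * (p : ℤ) - 3 by linarith)]

include D U in
/-- `π_j (S/p) = 0` for `1 ≤ j ≤ 2 p - 4`. -/
theorem pi_low {j : ℤ} (h1 : 1 ≤ j) (h2 : j ≤ 2 * (p : ℤ) - 4) (f : (𝟙_ T)⟦j⟧ ⟶ C) : f = 0 := by
  have hp3 : (3 : ℤ) ≤ p := by
    have h1 := (Fact.out : p.Prime).two_le
    have : 3 ≤ p := by omega
    exact_mod_cast this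
  apply (toD U C j).injective
  rw [map_zero]
  refine eq_zero_of_j D U hp hC (by linarith) (by linarith) _ (j_zero_modP D U hp hC ?_ _)
  rintro w rfl ⟨⟨k, hk⟩, -⟩
  have h3 : 0 < k := by
    by_contra h
    have : k ≤ 0 := by omega
    nlinarith
  nlinarith

end

end Vale.Agent.P257.H709
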