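import Vale.Agent.P251.S.ModP

/-!
# P257 / H709: the unital product of `S/p`

Let `𝟙 -n→ 𝟙 -i→ C -δ→ 𝟙⟦1⟧` be distinguished and `Hom (𝟙⟦1⟧, C) = 0`. Then `n = 0` on `C` and there
is `m : C ⊗ C ⟶ C` with `(i ⊗ C) ≫ m` and `(C ⊗ i) ≫ m` the unitors.
-/

open CategoryTheory MonoidalCategory Limits Pretriangulated

universe v u

namespace Vale.Agent.P257.H709

open Vale.Agent.P251.T Vale.Agent.P251.S

variable {T : Type u} [Category.{v} T] [Preadditive T] [HasZeroObject T] [HasShift T ℤ]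
  [∀ n : ℤ, (shiftFunctor T n).Additive] [Pretriangulated T] [MonoidalCategory T]
  [SymmetricCategory T] [TensorTriangulated T]
  {C : T} {n : ℤ} {i : 𝟙_ T ⟶ C} {δ : C ⟶ (𝟙_ T)⟦(1 : ℤ)⟧}
  (hC : Triangle.mk (n • 𝟙 (𝟙_ T)) i δ ∈ distTriang T)

include hC

omit [SymmetricCategory T] [TensorTriangulated T] in
/-- A map out of `C` which vanishes on the bottom cell is zero if `Hom (𝟙⟦1⟧, Y) = 0`. -/
theorem hom_eq_of_unit {Y : T} (h1 : ∀ f : (𝟙_ T)⟦(1 : ℤ)⟧ ⟶ Y, f = 0) {f g : C ⟶ Y}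
    (h : i ≫ f = i ≫ g) : f = g := by
  rw [← sub_eq_zero]
  obtain ⟨k, hk⟩ : ∃ k : (𝟙_ T)⟦(1 : ℤ)⟧ ⟶ Y, f - g = δ ≫ k :=
    Triangle.yoneda_exact₃ _ hC (f - g) (by
      change i ≫ (f - g) = 0
      rw [Preadditive.comp_sub, h, sub_self])
  rw [hk, h1 k, comp_zero]

omit [SymmetricCategory T] [TensorTriangulated T] in
theorem zsmul_unit : n • i = 0 := by
  have h : (n • 𝟙 (𝟙_ T)) ≫ i = 0 := comp_distTriang_mor_zero₁₂ _ hC
  rwa [Preadditive.zsmul_comp, Category.id_comp] at h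

omit [SymmetricCategory T] [TensorTriangulated T] in
/-- `n = 0` on `C`. -/
theorem zsmul_id (h1 : ∀ f : (𝟙_ T)⟦(1 : ℤ)⟧ ⟶ C, f = 0) : n • 𝟙 C = 0 := by
  refine hom_eq_of_unit hC h1 ?_
  rw [Preadditive.comp_zsmul, Category.comp_id, zsmul_unit hC, comp_zero]

/-- The unital product of `S/n`. -/
theorem exists_unital_product (h1 : ∀ f : (𝟙_ T)⟦(1 : ℤ)⟧ ⟶ C, f = 0) :
    ∃ m : C ⊗ C ⟶ C, (i ▷ C) ≫ m = (λ_ C).hom ∧ (C ◁ i) ≫ m = (ρ_ C).hom := by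
  obtain ⟨r, hr⟩ : ∃ r : C ⊗ C ⟶ C, 𝟙 C = (redC i).app C ≫ r :=
    Triangle.yoneda_exact₂ _ (redTri_distinguished hC C) (𝟙 C) (by
      change (n • 𝟙 C) ≫ 𝟙 C = 0
      rw [zsmul_id hC h1, zero_comp])
  have hr' : (C ◁ i) ≫ r = (ρ_ C).hom := by
    rw [redC_app, Category.assoc] at hr
    rw [← cancel_epi (ρ_ C).inv, ← hr, Iso.inv_hom_id]
  refine ⟨r, ?_, hr'⟩
  rw [← cancel_epi (λ_ C).inv, Iso.inv_hom_id]
  refine hom_eq_of_unit hC h1 ?_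
  rw [Category.comp_id, leftUnitor_inv_naturality_assoc, whisker_exchange_assoc, hr',
    rightUnitor_naturality, unitors_inv_equal, Iso.inv_hom_id_assoc]

end Vale.Agent.P257.H709
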