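import Vale.Agent.P257.H319.TBase
import Vale.Agent.P257.H709.LowPi
import Vale.Agent.P257.H709.ModPProd

/-!
# P257 / H709: `S/p` as a ring of coefficients

`coefP` : the structure `H319.Coef C i p (2 p - 3)` for `C = S/p`, `p` odd.
-/

open CategoryTheory MonoidalCategory Limits Pretriangulated

universe v u

namespace Vale.Agent.P257.H709

open Vale.Agent.P251.T Vale.Agent.P251.M Vale.Agent.P251.S Vale.Agent.P251.I Vale.Agent.P251.B
  Vale.Agent.P257.H319

variable {T : Type u} [Category.{v} T] [Preadditive T] [HasZeroObject T]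
    [HasShift T ℤ] [∀ n : ℤ, (shiftFunctor T n).Additive] [Pretriangulated T]
    [MonoidalCategory T] [SymmetricCategory T] [TensorTriangulated T] [HasCoproducts.{0} T]
    [MonoidalClosed T] [IsTriangulated T] [HasProducts.{0} T] [StableCat T]
  (D : MUData T) (U : UnitCof D.R) {p : ℕ} [Fact p.Prime] (hp : p ≠ 2)
  {C : T} {i : 𝟙_ T ⟶ C} {δ : C ⟶ (𝟙_ T)⟦(1 : ℤ)⟧}
  (hC : Triangle.mk ((p : ℤ) • 𝟙 (𝟙_ T)) i δ ∈ distTriang T)

include D hC in
omit [Fact p.Prime] [MonoidalClosed T] [IsTriangulated T] [HasProducts.{0} T] [StableCat T] in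
/-- `S/p` is connective. -/
theorem conn_modP : Conn (0 : ℤ) C :=
  (conn_red hC D.conn_unit).of_iso (λ_ C)

/-- `S/p` as a ring of coefficients. -/
noncomputable def coefP : Coef C i (p : ℤ) (2 * (p : ℤ) - 3) where
  m := (exists_unital_product hC (pi_low D U hp hC le_rfl (by
    have h1 := (Fact.out : p.Prime).two_le
    omega))).choose
  right_unit := (exists_unital_product hC (pi_low D U hp hC le_rfl (by
    have h1 := (Fact.out : p.Prime).two_le
    omega))).choose_spec.2
  left_unit := (exists_unital_product hC (pi_low D U hp hC le_rfl (by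
    have h1 := (Fact.out : p.Prime).two_le
    omega))).choose_spec.1
  pu := zsmul_unit hC
  van j h1 h2 f := pi_low D U hp hC h1 (by omega) f
  neg j hj f := conn_modP D hC j hj f

end Vale.Agent.P257.H709
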