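import Vale.Agent.P257.H709.Relation
import Vale.Agent.P257.H545.Final
import Vale.Agent.P251.M.MUMain

/-!
# P257 / H709: the relation `α₁ β₁^p = 0 mod p`

`todaRel_of` : the Prop `H545.TodaRel p D U` from the relation for external powers of maps.
-/

open CategoryTheory MonoidalCategory Limits Pretriangulated
open Vale.Agent.P251 Vale.Agent.P251.G Vale.Agent.P251.G.LC Vale.Agent.P251.I Vale.Agent.P251.T
open Vale.Agent.P251.M Vale.Agent.P251.S Vale.Agent.P251.F Vale.Agent.P251.B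
open Vale.Agent.P257.H762

universe v u

namespace Vale.Agent.P257.H709

variable {T : Type u} [Category.{v} T] [Preadditive T] [HasZeroObject T]
    [HasShift T ℤ] [∀ n : ℤ, (shiftFunctor T n).Additive] [Pretriangulated T] [IsTriangulated T]
    [MonoidalCategory T] [SymmetricCategory T] [TensorTriangulated T] [MonoidalClosed T]
    [HasCoproducts.{0} T] [HasProducts.{0} T] [StableCat T]

/-- `MU` with its orientation. -/
theorem exists_oriented (F : SpaceFunctor T) (e : F.S.obj CCF ≅ (stdEven T).L) :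
    ∃ (D : MUData T) (o : Q.Orientation (thK e D.R)), MUUniv e D ∧
      ∀ s, D.ev s = amEv e D.R o s := by
  obtain ⟨M⟩ := nonempty_MUMon F (stdEven T) e
  obtain ⟨b⟩ := M.nonempty_muBasis
  exact ⟨M.data b, M.ori, M.muUniv b, fun s => rfl⟩

/-- A nonzero element of `π_{2p-3} C` annihilated, up to the factor `m`, by the external powers of
the maps `ℂ^(n+m) ⟶ ℂ^n`. -/
def PowRel (F : SpaceFunctor T) (C : T) (p : ℕ) : Prop :=
  ∃ (O O' : T) (o : O ⟶ O') (_ : O ≅ (𝟙_ T)⟦2 * ((p : ℤ) - 1)⟧) (_ : O' ≅ C⟦(1 : ℤ)⟧),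
    o ≠ 0 ∧ ∀ (n m : ℕ) (f : LC.of (Fin n ⊕ Fin m → ℂ) ⟶ LC.of (Fin n → ℂ))
      (hX : FC (powObj (Fin p) (LC.of (Fin n ⊕ Fin m → ℂ))))
      (hY : FC (powObj (Fin p) (LC.of (Fin n → ℂ)))),
      (m : ℤ) • (F.S.map (FCat.hom (X := ⟨_, hX⟩) (Y := ⟨_, hY⟩) (powHom (Fin p) f)) ⊗ₘ o) = 0

omit [IsTriangulated T] [MonoidalClosed T] [HasCoproducts.{0} T] [HasProducts.{0} T]
  [StableCat T] in
/-- The same with an element of `Hom (𝟙⟦2p-3⟧, C)`. -/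
theorem powRel_of (F : SpaceFunctor T) {C : T} {p : ℕ} {r : ℤ} (hr : r = 2 * (p : ℤ) - 3)
    (o : (𝟙_ T)⟦r⟧ ⟶ C) (ho : o ≠ 0)
    (h4 : ∀ (n m : ℕ) (f : LC.of (Fin n ⊕ Fin m → ℂ) ⟶ LC.of (Fin n → ℂ))
      (hX : FC (powObj (Fin p) (LC.of (Fin n ⊕ Fin m → ℂ))))
      (hY : FC (powObj (Fin p) (LC.of (Fin n → ℂ)))),
      (m : ℤ) • (F.S.map (FCat.hom (X := ⟨_, hX⟩) (Y := ⟨_, hY⟩) (powHom (Fin p) f)) ⊗ₘ o) = 0) :
    PowRel F C p := by
  refine ⟨_, _, o⟦(1 : ℤ)⟧', (shiftFunctorAdd' T r 1 (2 * ((p : ℤ) - 1))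
    (by rw [hr]; ring)).symm.app (𝟙_ T), Iso.refl _, ?_, ?_⟩
  · intro h
    apply ho
    apply (shiftFunctor T (1 : ℤ)).map_injective
    rw [h, Functor.map_zero]
  · intro n m f hX hY
    have h1 : AI (o ⊗ₘ 𝟙 ((𝟙_ T)⟦(1 : ℤ)⟧)) (o⟦(1 : ℤ)⟧') :=
      ⟨TensorTriangulated.e _, TensorTriangulated.e _, by
        rw [tensorHom_id, TensorTriangulated.e_naturality]⟩
    have h2 := (AI.assoc (F.S.map (FCat.hom (X := ⟨_, hX⟩) (Y := ⟨_, hY⟩) (powHom (Fin p) f))) o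
      (𝟙 ((𝟙_ T)⟦(1 : ℤ)⟧))).trans ((AI.refl _).tensor h1)
    refine AI_zsmul h2 ?_
    rw [tensorHom_id, ← whiskerRight_zsmul', h4, MonoidalPreadditive.zero_whiskerRight]

/-- **The Toda relation** from the relation for external powers. -/
theorem todaRel_of {F : SpaceFunctor T} (D : MUData T) (U : UnitCof D.R) {p : ℕ}
    [Fact p.Prime] (hp : p ≠ 2) {C : T} {i : 𝟙_ T ⟶ C} {δ : C ⟶ (𝟙_ T)⟦(1 : ℤ)⟧}
    (hC : Triangle.mk ((p : ℤ) • 𝟙 (𝟙_ T)) i δ ∈ distTriang T) (h : PowRel F C p) :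
    H545.TodaRel p D U := by
  obtain ⟨O, O', o, eO, eO', ho, h4⟩ := h
  intro t ht htw hb a ha x _
  have hp1 := (Fact.out : p.Prime).one_le
  exact exists_div_of_pow F D U hp hC (v := (p : ℤ) - 1) (w := (p : ℤ) * ((p : ℤ) - 1))
    (by rw [Nat.cast_sub hp1, Nat.cast_one])
    (by rw [Nat.cast_mul, Nat.cast_sub hp1, Nat.cast_one]) ht htw a ha
    (x ≫ U.bd 1 (𝟙_ T) ≫ (U.bd 0 (𝟙_ T))⟦(1 : ℤ)⟧') o eO eO' ho h4

end Vale.Agent.P257.H709
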