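import Vale.Agent.P257.H709.OneCoc
import Vale.Agent.P251.F.LazPoly

/-!
# P257 / H709: the cocycles of degree one and weight `p - 1` over `Laz/p` are multiples of `t_1`
-/

noncomputable section

namespace Vale.Agent.P257.H709

open Vale.Agent.P217 Vale.Agent.P251.F Vale.Agent.P251.I Vale.Agent.P251.F.F3 LawRing

variable {B C : Type} [CommRing B] [CommRing C]

/-- the series `x + b x^p` -/
def twS (p : ℕ) (b : B) : strict B := ⟨strictMk fun i => if i + 2 = p then b else 0,
  strictMk_mem _⟩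

theorem val_twS {p : ℕ} (hp : 2 ≤ p) (b : B) :
    (twS p b : InvSeries B).val = PowerSeries.X + PowerSeries.C b * PowerSeries.X ^ p := by
  ext n
  rcases n with _ | n
  · rw [PowerSeries.coeff_zero_eq_constantCoeff_apply, (twS p b : InvSeries B).cc,
      PowerSeries.coeff_zero_eq_constantCoeff_apply, RingHom.map_add,
      RingHom.map_mul, RingHom.map_pow, PowerSeries.constantCoeff_X, zero_pow (by omega),
      mul_zero, add_zero]
  · rw [map_add, PowerSeries.coeff_C_mul, PowerSeries.coeff_X_pow]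
    rcases n with _ | n
    · change (strictMk fun i => if i + 2 = p then b else 0).c 0 = _
      rw [c_zero_strictMk, PowerSeries.coeff_one_X, if_neg (by omega), mul_zero, add_zero]
    · change (strictMk fun i => if i + 2 = p then b else 0).c (n + 1) = _
      rw [c_succ_strictMk, PowerSeries.coeff_X, if_neg (show ¬ n + 1 + 1 = 1 by omega), zero_add]
      by_cases h : n + 2 = p
      · rw [if_pos h, if_pos (show n + 1 + 1 = p by omega), mul_one]
      · rw [if_neg h, if_neg (show ¬ n + 1 + 1 = p by omega), mul_zero]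

theorem smap_twS (φ : B →+* C) (p : ℕ) (b : B) : smap φ (twS p b) = twS p (φ b) := by
  apply Subtype.ext
  rw [val_smap]
  change InvSeries.map φ (strictMk fun i => if i + 2 = p then b else 0) =
    strictMk fun i => if i + 2 = p then φ b else 0
  rw [map_strictMk]
  congr 1
  funext n
  rw [apply_ite φ, map_zero]

theorem twS_smul {p : ℕ} [hpp : Fact p.Prime] [CharP B p] (b : B) :
    (twS p b : InvSeries B) • Vale.Agent.P251.F.addLaw B = Vale.Agent.P251.F.addLaw B := by
  rw [InvSeries.smul_eq_iff_isHom]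
  have hp2 := hpp.out.two_le
  have : CharP (MvPowerSeries (Fin 2) B) p :=
    charP_of_injective_ringHom (f := (MvPowerSeries.C : B →+* MvPowerSeries (Fin 2) B))
      (MvPowerSeries.C_injective) p
  have hX : ∀ i : Fin 2, PowerSeries.HasSubst (MvPowerSeries.X i : MvPowerSeries (Fin 2) B) :=
    fun i => PowerSeries.HasSubst.of_constantCoeff_zero (MvPowerSeries.constantCoeff_X i)
  have hXX : PowerSeries.HasSubst (MvPowerSeries.X 0 + MvPowerSeries.X 1 :
      MvPowerSeries (Fin 2) B) := (hX 0).add (hX 1)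
  have hs : ∀ g : MvPowerSeries (Fin 2) B, PowerSeries.HasSubst g →
      (PowerSeries.subst g (twS p b : InvSeries B).val : MvPowerSeries (Fin 2) B) =
        g + MvPowerSeries.C b * g ^ p := by
    intro g hg
    rw [val_twS hp2, PowerSeries.subst_add hg, PowerSeries.subst_mul hg, PowerSeries.subst_pow hg,
      PowerSeries.subst_X hg, PowerSeries.subst_C]
  refine ⟨(twS p b : InvSeries B).cc, ?_⟩
  have h1 : (Vale.Agent.P251.F.addLaw B).toFG.toPowerSeries =
    (MvPowerSeries.X 0 + MvPowerSeries.X 1 : MvPowerSeries (Fin 2) B) := rfl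
  rw [h1, hs _ hXX, hs _ (hX 0), hs _ (hX 1)]
  have h2 : MvPowerSeries.HasSubst
      ![(MvPowerSeries.X 0 + MvPowerSeries.C b * MvPowerSeries.X 0 ^ p :
        MvPowerSeries (Fin 2) B), MvPowerSeries.X 1 + MvPowerSeries.C b * MvPowerSeries.X 1 ^ p] := by
    apply MvPowerSeries.hasSubst_of_constantCoeff_zero
    intro i
    fin_cases i <;> simp [(show p ≠ 0 by omega)]
  rw [MvPowerSeries.subst_add h2, MvPowerSeries.subst_X h2, MvPowerSeries.subst_X h2]
  change _ = (MvPowerSeries.X 0 + MvPowerSeries.C b * MvPowerSeries.X 0 ^ p) +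
    (MvPowerSeries.X 1 + MvPowerSeries.C b * MvPowerSeries.X 1 ^ p)
  rw [add_pow_char]
  ring

section

variable (p : ℕ) [hpp : Fact p.Prime]

/-- the additive point over `𝔽_p[X]` -/
def xAdd : LP p →+* Polynomial (ZMod p) :=
  Ideal.Quotient.lift (Ideal.span {(p : Laz)})
    (Laz.lift (Vale.Agent.P251.F.addLaw (Polynomial (ZMod p)))) (by
      intro a ha
      rw [Ideal.mem_span_singleton] at ha
      obtain ⟨b, rfl⟩ := ha
      rw [map_mul, map_natCast, CharP.cast_eq_zero, zero_mul])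

theorem xAdd_comp : (xAdd p).comp (Ideal.Quotient.mk (Ideal.span {(p : Laz)})) =
    Laz.lift (Vale.Agent.P251.F.addLaw (Polynomial (ZMod p))) := by
  ext a
  rfl

theorem law_xAdd : (law : Law (LP p)).map (xAdd p) =
    Vale.Agent.P251.F.addLaw (Polynomial (ZMod p)) := by
  have h : (law : Law (LP p)) = Laz.univ.map (Ideal.Quotient.mk (Ideal.span {(p : Laz)})) := rfl
  rw [h, Law.map_map, xAdd_comp, Laz.univ_map_lift]

theorem act_xAdd (b : Polynomial (ZMod p)) :
    act (twS p b : InvSeries (Polynomial (ZMod p))) (xAdd p) = xAdd p := by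
  have hinj : PtsInj (LP p) :=
    LawRing.epi_quotient LawRing.epi_laz _ (Vale.Agent.P251.I.invariant_p p)
  apply hinj
  rw [law_act, law_xAdd, twS_smul]

/-- the one arrow chain over `𝔽_p[X]` given by `x + X x^p` -/
def arrF : ℕ → strict (Polynomial (ZMod p)) := fun _ => twS p Polynomial.X

omit hpp in
theorem coe_prodSeq_one {B : Type} [CommRing B] (f : ℕ → strict B) :
    ((prodSeq f 1 : strict B) : InvSeries B) = f 0 := by
  have h : prodSeq f 1 = f 0 := by
    change f 0 * prodSeq f 0 = f 0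
    rw [show prodSeq f 0 = 1 from rfl, mul_one]
  rw [h]

omit hpp in
theorem ofSeq_prodSeq_pt {B N : Type} [CommRing B] [CommRing N] [LawRing N] (x : N →+* B)
    (f : ℕ → strict B) : (ofSeq 1 x (prodSeq f)).pt = x := by
  rw [ofSeq_pt]
  change act ((1 : strict B) : InvSeries B) x = x
  rw [Subgroup.coe_one, act_one]

omit hpp in
theorem ofSeq_prodSeq_g {B N : Type} [CommRing B] [CommRing N] [LawRing N] (x : N →+* B)
    (f : ℕ → strict B) : (ofSeq 1 x (prodSeq f)).g 1 = f 0 := by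
  rw [ofSeq_g]
  change (prodSeq f 1 : InvSeries B) * ((1 : strict B) : InvSeries B)⁻¹ = _
  rw [Subgroup.coe_one, inv_one, mul_one, coe_prodSeq_one]

theorem evSeq_arrF_d (y : Cob (LP p) 0) :
    evSeq (xAdd p) (Cob.d 0 y) (prodSeq (arrF p)) = 0 := by
  rw [evSeq, Cob.ev_d, Fin.sum_univ_two]
  have h1 : (ofSeq 1 (xAdd p) (prodSeq (arrF p))).res (Fin.succAbove (0 : Fin 2)) =
      (ofSeq 1 (xAdd p) (prodSeq (arrF p))).res (Fin.succAbove (1 : Fin 2)) := by
    ext1
    · rw [Chain.res_pt, Chain.res_pt]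
      rw [show (Fin.succAbove (0 : Fin 2)) 0 = 1 from rfl,
        show (Fin.succAbove (1 : Fin 2)) 0 = 0 from rfl, Chain.zero, act_one,
        ofSeq_prodSeq_pt, ofSeq_prodSeq_g]
      exact act_xAdd p _
    · funext i
      obtain rfl : i = 0 := by omega
      rw [Chain.zero, Chain.zero]
  rw [h1]
  simp

theorem evSeq_arrF_t {t : Cob Laz 1} (ht : IsT1 p t) :
    evSeq (xAdd p) (Cob.mapRing (Ideal.Quotient.mk (Ideal.span {(p : Laz)})) 1 t)
      (prodSeq (arrF p)) = - Polynomial.X := by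
  have hp2 := hpp.out.two_le
  rw [evSeq, Cob.ev_mapRing]
  set φ : Polynomial ℤ →+* Polynomial (ZMod p) := Polynomial.mapRingHom (Int.castRingHom (ZMod p))
    with hφ
  set c : Chain Laz 1 (Polynomial ℤ) :=
    ofSeq 1 (Laz.lift (Vale.Agent.P251.F.addLaw (Polynomial ℤ)))
      (prodSeq fun _ => twS p Polynomial.X) with hc
  have h1 : (ofSeq 1 (xAdd p) (prodSeq (arrF p))).pre
      (Ideal.Quotient.mk (Ideal.span {(p : Laz)})) = c.map φ := by
    ext1
    · change (ofSeq 1 (xAdd p) (prodSeq (arrF p))).pt.comp _ = φ.comp c.pt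
      rw [ofSeq_prodSeq_pt, xAdd_comp, hc, ofSeq_prodSeq_pt, Laz.comp_lift, map_addLaw]
    · funext i
      fin_cases i
      · exact (Chain.zero _).trans (Chain.zero _).symm
      · change (ofSeq 1 (xAdd p) (prodSeq (arrF p))).g 1 = InvSeries.map φ (c.g 1)
        rw [ofSeq_prodSeq_g, hc, ofSeq_prodSeq_g, ← val_smap, smap_twS, hφ,
          Polynomial.coe_mapRingHom, Polynomial.map_X]
        rfl
  have h2 : ∀ x : Polynomial ℤ, (p : Polynomial ℤ) * x = 0 → x = 0 := fun x hx => by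
    have : ((p : ℕ) : Polynomial ℤ) ≠ 0 := by exact_mod_cast hpp.out.ne_zero
    exact (mul_eq_zero.1 hx).resolve_left this
  have h3 : (Laz.univ.map c.pt).ps - (MvPowerSeries.X 0 + MvPowerSeries.X 1) ∈
      ordI (Fin 2) (Polynomial ℤ) (p + 1) := by
    rw [hc, ofSeq_prodSeq_pt, Laz.univ_map_lift, addLaw_ps, sub_self]
    exact Ideal.zero_mem _
  have h4 : (c.g 1).val - (PowerSeries.X + PowerSeries.C Polynomial.X * PowerSeries.X ^ p) ∈
      ordI Unit (Polynomial ℤ) (p + 1) := by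
    rw [hc, ofSeq_prodSeq_g, val_twS hp2, sub_self]
    exact Ideal.zero_mem _
  rw [h1, Cob.ev_map, ev_t1 p h2 ht c h3 Polynomial.X h4]
  rw [map_mul, map_sub, map_pow, map_natCast, map_one, CharP.cast_eq_zero, zero_pow (by omega),
    zero_sub, neg_one_mul, hφ, Polynomial.coe_mapRingHom, Polynomial.map_X]

omit hpp in
theorem kap_add {N : Type} [CommRing N] [LawRing N] (y z : Cob N 1) :
    kap p (y + z) = kap p y + kap p z := by
  rw [kap, kap, kap, toArr, evSeq_add, MvPolynomial.coeff_add]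
  rfl

omit hpp in
theorem kap_zsmul {N : Type} [CommRing N] [LawRing N] (k : ℤ) (z : Cob N 1) :
    kap p (k • z) = k • kap p z := by
  rw [kap, kap, toArr, evSeq_zsmul, toArr, MvPolynomial.coeff_smul]

/-- **`H^1` in weight `p - 1`**: a cocycle of degree one and weight `p - 1` over `Laz/p` is the sum
of a multiple of `t_1` and of a coboundary. -/
theorem exists_of_cocycle_one (hp3 : 3 ≤ p) {t : Cob Laz 1} (ht : IsT1 p t)
    {z : Cob (LP p) 1} (hw : Cob.IsWt ((p - 1 : ℕ) : ℤ) z) (hd : Cob.d 1 z = 0) :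
    ∃ (k : ℤ) (y : Cob (LP p) 0), Cob.IsWt ((p - 1 : ℕ) : ℤ) y ∧
      z = k • Cob.mapRing (Ideal.Quotient.mk (Ideal.span {(p : Laz)})) 1 t + Cob.d 0 y := by
  have hp0 : (p : LP p) = 0 := by
    rw [← map_natCast (Ideal.Quotient.mk (Ideal.span {(p : Laz)}))]
    exact Ideal.Quotient.eq_zero_iff_mem.2 (Ideal.mem_span_singleton_self _)
  have hN : PNil p (LP p) := ⟨by rw [hp0]; exact IsNilpotent.zero⟩
  have hinj : PtsInj (LP p) :=
    LawRing.epi_quotient LawRing.epi_laz _ (Vale.Agent.P251.I.invariant_p p)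
  have hneg := noNeg_LP p
  have hπ := isLawHom_mkLP p
  obtain ⟨ht1, ht2, -, -, -⟩ := BCocycle p (by omega) t ht
  set tb := Cob.mapRing (Ideal.Quotient.mk (Ideal.span {(p : Laz)})) 1 t with htb
  have hw2 : Cob.IsWt ((p - 1 : ℕ) : ℤ) tb := ht1.mapRing hπ
  have hd2 : Cob.d 1 tb = 0 := by rw [htb, ← Cob.mapRing_d hπ, ht2, map_zero]
  obtain ⟨y1, hy1, hn1⟩ := exists_norm hw hd
  obtain ⟨y2, hy2, hn2⟩ := exists_norm hw2 hd2
  have hw1' : Cob.IsWt ((p - 1 : ℕ) : ℤ) (z - Cob.d 0 y1) := by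
    rw [sub_eq_add_neg]
    exact hw.add hy1.d.neg
  have hw2' : Cob.IsWt ((p - 1 : ℕ) : ℤ) (tb - Cob.d 0 y2) := by
    rw [sub_eq_add_neg]
    exact hw2.add hy2.d.neg
  obtain ⟨l, hl⟩ := kap_int hp3 hw1'
  obtain ⟨k, hk⟩ := kap_int hp3 hw2'
  -- the leading coefficient of `t_1`
  have hk1 : (k : ZMod p) = -1 := by
    have h1 := evSeq_leading hp3 hneg hw2' hn2 (xAdd p) (f := arrF p) (fun m hm => by
      change (strictMk fun i => if i + 2 = p then Polynomial.X else 0).c (m + 1) = 0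
      rw [c_succ_strictMk, if_neg (by omega)])
    rw [evSeq_sub, evSeq_arrF_d, sub_zero, htb, evSeq_arrF_t p ht, ← htb, hk, map_intCast] at h1
    have h2 : (arrF p 0 : InvSeries (Polynomial (ZMod p))).c (p - 1) = Polynomial.X := by
      change (strictMk fun i => if i + 2 = p then Polynomial.X else 0).c (p - 1) = _
      obtain ⟨q, rfl⟩ : ∃ q, p = q + 2 := ⟨p - 2, by omega⟩
      rw [show q + 2 - 1 = q + 1 by omega, c_succ_strictMk, if_pos rfl]
    rw [h2] at h1
    have h3 := congrArg (fun f => Polynomial.coeff f 1) h1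
    simp only [Polynomial.coeff_neg, Polynomial.coeff_X_one] at h3
    rw [Polynomial.coeff_mul_X (n := 0), ← Polynomial.C_eq_intCast, Polynomial.coeff_C_zero] at h3
    exact h3.symm
  have hk2 : ((1 + k : ℤ) : LP p) = 0 := by
    have h1 : (p : ℤ) ∣ 1 + k := by
      rw [← ZMod.intCast_zmod_eq_zero_iff_dvd]
      push_cast
      rw [hk1]
      ring
    obtain ⟨m, hm⟩ := h1
    rw [hm, Int.cast_mul, Int.cast_natCast, hp0, zero_mul]
  -- the sum with leading coefficient zero
  set w := (z - Cob.d 0 y1) + l • (tb - Cob.d 0 y2) with hwdef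
  have hww : Cob.IsWt ((p - 1 : ℕ) : ℤ) w := hw1'.add (hw2'.zsmul l)
  have hwn : Nm 1 w := by
    intro B _ x G j hj
    rw [hwdef, evSeq_add, evSeq_zsmul, hn1 B x G j hj, hn2 B x G j hj, smul_zero, add_zero]
  have hwk : kap p w = 0 := by
    rw [hwdef, kap_add, kap_zsmul, hl, hk, zsmul_eq_mul, ← Int.cast_mul, ← Int.cast_add,
      show l + l * k = l * (1 + k) by ring, Int.cast_mul, hk2, mul_zero]
  have hwd : Cob.d 1 w = 0 := by
    rw [hwdef, map_add, map_zsmul, map_sub, map_sub, hd, hd2, Cob.d_d, Cob.d_d, sub_zero,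
      smul_zero, add_zero]
  have hwr : rOp p 1 w = 0 := by
    apply Cob.ext_ev
    intro B _ c
    have : PNil p B := pnil_map c.pt inferInstance
    obtain ⟨x, b, hxb⟩ := ev_rOp_leading (p := p) hp3 hneg c
    rw [hxb w hww hwn, hwk, map_zero, map_zero, zero_mul]
  have h : Cob.d 0 (hOp p 0 w) = -w := by
    have h := hOp_d_add_d_hOp (p := p) w
    rw [hwd, map_zero] at h
    rw [show Cob.d 0 (hOp p 0 w) = 0 + Cob.d 0 (hOp p 0 w) from (zero_add _).symm]
    refine h.trans ?_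
    change rOp p 1 w - w = -w
    rw [hwr, zero_sub]
  refine ⟨-l, y1 + l • y2 - hOp p 0 w, ?_, ?_⟩
  · rw [sub_eq_add_neg]
    exact (hy1.add (hy2.zsmul l)).add (isWt_hOp hww).neg
  · rw [map_sub, h, map_add, map_zsmul, hwdef]
    rw [smul_sub, neg_smul]
    abel

/-- The same over `Laz`, modulo `p`. -/
theorem exists_of_cocycle_one_modP (hp3 : 3 ≤ p) {t : Cob Laz 1} (ht : IsT1 p t)
    {z : Cob Laz 1} (hw : Cob.IsWt ((p - 1 : ℕ) : ℤ) z) {y : Cob Laz 2}
    (hd : Cob.d 1 z = (p : ℤ) • y) :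
    ∃ (k : ℤ) (x : Cob Laz 0) (u : Cob Laz 1), Cob.IsWt ((p - 1 : ℕ) : ℤ) x ∧
      Cob.IsWt ((p - 1 : ℕ) : ℤ) u ∧ z = k • t + Cob.d 0 x + (p : ℤ) • u := by
  have hπ := isLawHom_mkLP p
  have hp0 : (p : LP p) = 0 := by
    rw [← map_natCast (Ideal.Quotient.mk (Ideal.span {(p : Laz)}))]
    exact Ideal.Quotient.eq_zero_iff_mem.2 (Ideal.mem_span_singleton_self _)
  have hpc : ∀ (n : ℕ) (c : Cob (LP p) n), (p : ℤ) • c = 0 := by
    intro n c
    have h : ((p : ℕ) : Cob (LP p) n) = 0 := by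
      rw [← map_natCast (MvPolynomial.C : LP p →+* Cob (LP p) n), hp0, map_zero]
    rw [zsmul_eq_mul, Int.cast_natCast, h, zero_mul]
  have h1 : Cob.d 1 (Cob.mapRing (Ideal.Quotient.mk (Ideal.span {(p : Laz)})) 1 z) = 0 := by
    rw [← Cob.mapRing_d hπ, hd, map_zsmul, hpc]
  obtain ⟨k, y', hy', hzy⟩ := exists_of_cocycle_one p hp3 ht (hw.mapRing hπ) h1
  obtain ⟨y'', rfl⟩ := Cob.mapRing_surjective (n := 0)
    (Ideal.Quotient.mk_surjective (I := Ideal.span {(p : Laz)})) y'
  have h2 : Cob.mapRing (Ideal.Quotient.mk (Ideal.span {(p : Laz)})) 0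
      (Cob.proj ((p - 1 : ℕ) : ℤ) y'') =
      Cob.mapRing (Ideal.Quotient.mk (Ideal.span {(p : Laz)})) 0 y'' := by
    rw [← Cob.proj_mapRing hπ, Cob.proj_of_isWt hy', if_pos rfl]
  have hx := Cob.isWt_proj ((p - 1 : ℕ) : ℤ) y''
  obtain ⟨ht1, -, -, -, -⟩ := BCocycle p (by omega) t ht
  have h3 : Cob.mapRing (Ideal.Quotient.mk (Ideal.span {(p : Laz)})) 1
      (z + -(k • t + Cob.d 0 (Cob.proj ((p - 1 : ℕ) : ℤ) y''))) = 0 := by
    rw [map_add, map_neg, map_add, map_zsmul, Cob.mapRing_d hπ, h2, hzy, add_neg_cancel]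
  obtain ⟨u, hu, hzu⟩ := exists_of_mapRing_mk_eq_zero p
    (hw.add ((ht1.zsmul k).add hx.d).neg) h3
  exact ⟨k, _, u, hx, hu, by rw [← hzu]; abel⟩

end

end Vale.Agent.P257.H709

end
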