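import Vale.Agent.P257.H709.LowPi
import Vale.Agent.P257.H709.HOne

/-!
# P257 / H709: `π_{2p-3} (S/p)` is generated by the image of `α₁`

`D : MUData T`, `U` a cofibre of the unit of `D.R`, `C = S/p`, `p` odd, `v = p - 1`,
`a : 𝟙⟦2v⟧ ⟶ J` with image the cocycle `t₁` (then `α₁ = a ≫ U.bd 0 𝟙 : 𝟙⟦2v⟧ ⟶ 𝟙⟦1⟧`).

* `pi_gen` : every `y : 𝟙⟦2v⟧ ⟶ C⟦1⟧` is a multiple of `a ≫ U.bd 0 𝟙 ≫ i⟦1⟧`.
-/

open CategoryTheory MonoidalCategory Limits Pretriangulated MonObj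

universe v u

namespace Vale.Agent.P257.H709

open Vale.Agent.P251.T Vale.Agent.P251.M Vale.Agent.P251.S Vale.Agent.P251.F Vale.Agent.P251.I
  Vale.Agent.P251.B

variable {T : Type u} [Category.{v} T] [Preadditive T] [HasZeroObject T]
    [HasShift T ℤ] [∀ n : ℤ, (shiftFunctor T n).Additive] [Pretriangulated T]
    [MonoidalCategory T] [SymmetricCategory T] [TensorTriangulated T] [HasCoproducts.{0} T]
    [MonoidalClosed T] [IsTriangulated T] [HasProducts.{0} T] [StableCat T]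
  (D : MUData T) (U : UnitCof D.R) {p : ℕ} [Fact p.Prime] (hp : p ≠ 2)
  {C : T} {i : 𝟙_ T ⟶ C} {δ : C ⟶ (𝟙_ T)⟦(1 : ℤ)⟧}
  (hC : Triangle.mk ((p : ℤ) • 𝟙 (𝟙_ T)) i δ ∈ distTriang T)

include hp hC

/-- Elements of filtration one in stem `2 v - 1` with zero image in the `E_1`-term vanish. -/
theorem eq_zero_of_a_one {v : ℤ} (hv : v = (p - 1 : ℕ))
    (g : (𝟙_ T)⟦2 * v⟧ ⟶ U.cobar.B 1 (𝟙_ T) ⊗ C)
    (hg : g ≫ (unitMap D.R (U.cobar.B 1 (𝟙_ T)) ▷ C) = 0) : g = 0 := by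
  have hp3 : 3 ≤ p := by
    have h1 := (Fact.out : p.Prime).two_le
    omega
  have hv' : v = (p : ℤ) - 1 := by
    rw [hv, Nat.cast_sub (by omega), Nat.cast_one]
  have hp3' : (3 : ℤ) ≤ p := by exact_mod_cast hp3
  let X := (U.tow (𝟙_ T)).map (tensorRight C)
  let K := X.couple (𝟙_ T)
  have h1 : (2 * v - 1) + ((1 : ℕ) : ℤ) = 2 * v := by push_cast; ring
  let y : K.D 1 (2 * v - 1) := (X.eD (𝟙_ T) h1).symm g
  have h5 : X.eD (𝟙_ T) h1 y = g := AddEquiv.apply_symm_apply _ _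
  have hy : K.j 1 (2 * v - 1) y = 0 := by
    apply (X.eE (𝟙_ T) h1).injective
    rw [map_zero]
    refine (X.eE_j (𝟙_ T) h1 y).trans ?_
    rw [h5]
    exact hg
  have hy0 : y = 0 := by
    obtain ⟨y', hy'⟩ := K.exact_j 1 _ y hy
    obtain ⟨y'', hy''⟩ := K.exists_iN_eq (s := 1) (m := 2 * v - 1) (fun s hs => by
      refine van_modP D U hp hC rfl fun w hw => ?_
      rintro ⟨-, h2⟩
      have hs' : (1 : ℤ) ≤ s := by exact_mod_cast hs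
      push_cast at hw
      nlinarith [mul_nonneg (show (0 : ℤ) ≤ s by linarith)
        (show (0 : ℤ) ≤ 2 * (p : ℤ) - 3 by linarith)]) y' ((2 * v).toNat + 1)
    rw [← hy', ← hy'']
    have h3 : y'' = 0 := by
      refine D_eq_zero D U hC _ _ ?_ y''
      push_cast
      have h4 := Int.self_le_toNat (2 * v)
      linarith
    rw [h3, map_zero]
  rw [← h5, hy0]
  exact map_zero (X.eD (𝟙_ T) h1)

/-- `π_{2p-3} (S/p)` is generated by the image of `α₁`. -/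
theorem pi_gen {v : ℤ} (hv : v = (p - 1 : ℕ)) {t : Cob Laz 1} (ht : IsT1 p t)
    (htw : Cob.IsWt v t) (a : (𝟙_ T)⟦2 * v⟧ ⟶ U.cobar.B 1 (𝟙_ T))
    (ha : ((sphE T v).inv ≫ D.phi U 1 v ⟨t, htw⟩) ≫ U.cobar.q 1 (𝟙_ T) = a ≫ unitMap D.R _)
    (y : (𝟙_ T)⟦2 * v⟧ ⟶ C⟦(1 : ℤ)⟧) :
    ∃ k : ℤ, y = k • (a ≫ U.bd 0 (𝟙_ T) ≫ i⟦(1 : ℤ)⟧') := by
  have hp3 : 3 ≤ p := by
    have h1 := (Fact.out : p.Prime).two_le
    omega
  let F : T ⥤ T := tensorRight C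
  let Y := U.tow (𝟙_ T)
  let X := Y.map F
  have hred : ∀ {Z Z' : T} (f : Z ⟶ Z'), f ≫ (redC i).app Z' = (redC i).app Z ≫ (f ▷ C) :=
    fun f => (redC i).naturality f
  -- the element lifts to filtration one
  let y0 : (𝟙_ T)⟦2 * v⟧ ⟶ (X.J 0)⟦(1 : ℤ)⟧ := y ≫ ((λ_ C).inv)⟦(1 : ℤ)⟧'
  have h0 : y0 ≫ (X.a 0)⟦(1 : ℤ)⟧' = 0 := by
    obtain ⟨f, hf⟩ := (sh (P := 𝟙_ T) (Y := X.W 0) (2 * (v - 1) + 1) 1 (2 * v)
      (by ring)).surjective (y0 ≫ (X.a 0)⟦(1 : ℤ)⟧')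
    have h1 : f = 0 := odd_W D U hp hC 0 (v - 1) f
    rw [← hf, h1, map_zero]
  obtain ⟨g, hg⟩ : ∃ g : (𝟙_ T)⟦2 * v⟧ ⟶ X.J 1, y0 = g ≫ X.c 0 :=
    Triangle.coyoneda_exact₁ _ (X.dist 0) y0 h0
  -- its image in the `E_1`-term
  obtain ⟨c, hc, hcg⟩ := U.cobar.exists_cocycle (F := homF F (𝟙_ T) (2 * v)) 1 (𝟙_ T)
    (g ≫ X.a 1) (by
      have h1 : F.map (U.cobar.D 1 (𝟙_ T)) = X.b 1 ≫ X.a 2 := F.map_comp (Y.b 1) (Y.a 2)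
      refine (congrArg (fun f => (g ≫ X.a 1) ≫ f) h1).trans ?_
      change (g ≫ X.a 1) ≫ X.b 1 ≫ X.a 2 = 0
      rw [Category.assoc, X.a_b_assoc, zero_comp, comp_zero])
  change (𝟙_ T)⟦2 * v⟧ ⟶ U.cobar.Q 2 (𝟙_ T) ⊗ C at c
  change c ≫ (U.cobar.d 2 (𝟙_ T) ▷ C) = 0 at hc
  change c ≫ (U.cobar.q 1 (𝟙_ T) ▷ C) = g ≫ X.a 1 at hcg
  -- algebra
  have h1 : ((sphE T v).hom ≫ c) ≫ (U.cobar.d 2 (𝟙_ T) ▷ C) = 0 := by
    rw [Category.assoc, hc, comp_zero]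
  obtain ⟨z, hz⟩ := D.phi_red_surj U hp hC 1 v ((sphE T v).hom ≫ c)
  have h2 : D.phi U 2 v (Cob.dwt Laz 1 v z) ≫ (redC i).app _ = 0 := by
    rw [D.phi_d U 1 v z, Category.assoc, hred, ← Category.assoc, ← hz, h1]
  obtain ⟨y2, hy2⟩ := D.phi_red_ker U hp hC 2 v _ h2
  obtain ⟨k, x, u, hx, hu, hzk⟩ := exists_of_cocycle_one_modP p hp3 ht (z := z.1)
    (by rw [← hv]; exact z.2) (y := y2.1) (congrArg Subtype.val hy2)
  rw [← hv] at hx hu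
  have h3 : z = k • (⟨t, htw⟩ : Cob.wt Laz 1 v) + Cob.dwt Laz 0 v ⟨x, hx⟩ +
      (p : ℤ) • (⟨u, hu⟩ : Cob.wt Laz 1 v) := Subtype.ext hzk
  let e : (𝟙_ T)⟦2 * v⟧ ⟶ X.W 0 := (sphE T v).inv ≫ (D.phi U 0 v ⟨x, hx⟩ ≫ (redC i).app _)
  let ra : (𝟙_ T)⟦2 * v⟧ ⟶ X.J 1 := a ≫ (redC i).app (U.cobar.B 1 (𝟙_ T))
  -- the correction
  let g0 : (𝟙_ T)⟦2 * v⟧ ⟶ X.J 1 := g - k • ra - e ≫ X.b 0
  have h4 : g0 ≫ X.a 1 = 0 := by
    change (g - k • ra - e ≫ X.b 0) ≫ X.a 1 = 0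
    rw [Preadditive.sub_comp, Preadditive.sub_comp, sub_sub, sub_eq_zero, ← hcg,
      Preadditive.zsmul_comp]
    have e1 : c = (sphE T v).inv ≫ D.phi U 1 v z ≫ (redC i).app _ := by
      rw [← hz, Iso.inv_hom_id_assoc]
    have e2 : c = k • ((sphE T v).inv ≫ D.phi U 1 v ⟨t, htw⟩ ≫ (redC i).app _) +
        (sphE T v).inv ≫ (D.phi U 0 v ⟨x, hx⟩ ≫ U.cobar.d 1 (𝟙_ T)) ≫ (redC i).app _ := by
      rw [e1, h3, map_add, map_add, map_zsmul, map_zsmul, Preadditive.add_comp,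
        Preadditive.add_comp, zsmul_comp_red hC, add_zero, Preadditive.zsmul_comp,
        Preadditive.comp_add, Preadditive.comp_zsmul, D.phi_d]
    have e3 : ((sphE T v).inv ≫ D.phi U 1 v ⟨t, htw⟩ ≫ (redC i).app _) ≫
        (U.cobar.q 1 (𝟙_ T) ▷ C) = ra ≫ X.a 1 := by
      have h8 := congrArg (fun f => f ≫ (redC i).app (D.R ⊗ U.cobar.B 1 (𝟙_ T))) ha
      simp only [Category.assoc] at h8
      rw [Category.assoc, Category.assoc, ← hred]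
      refine h8.trans ?_
      change a ≫ unitMap D.R (U.cobar.B 1 (𝟙_ T)) ≫ (redC i).app _ =
        (a ≫ (redC i).app (U.cobar.B 1 (𝟙_ T))) ≫ (unitMap D.R (U.cobar.B 1 (𝟙_ T)) ▷ C)
      rw [hred, Category.assoc]
    have e4 : ((sphE T v).inv ≫ (D.phi U 0 v ⟨x, hx⟩ ≫ U.cobar.d 1 (𝟙_ T)) ≫
        (redC i).app _) ≫ (U.cobar.q 1 (𝟙_ T) ▷ C) = (e ≫ X.b 0) ≫ X.a 1 := by
      rw [Category.assoc, Category.assoc, Category.assoc, ← hred]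
      have h8 : U.cobar.d 1 (𝟙_ T) ≫ U.cobar.q 1 (𝟙_ T) =
          U.cobar.k 0 (𝟙_ T) ≫ unitMap D.R (U.cobar.B 1 (𝟙_ T)) := by
        rw [CobarData.d_q, CobarData.q_zero, Category.id_comp]
        rfl
      rw [reassoc_of% h8, hred, reassoc_of% (hred (U.cobar.k 0 (𝟙_ T)))]
      change _ = (((sphE T v).inv ≫ (D.phi U 0 v ⟨x, hx⟩ ≫ (redC i).app _)) ≫
        (U.cobar.k 0 (𝟙_ T) ▷ C)) ≫ (unitMap D.R (U.cobar.B 1 (𝟙_ T)) ▷ C)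
      simp only [Category.assoc]
    rw [e2, Preadditive.add_comp, Preadditive.zsmul_comp, e3, e4]
    rfl
  have h5 : g0 = 0 := eq_zero_of_a_one D U hp hC hv g0 h4
  have h6 : g = k • ra + e ≫ X.b 0 := by
    rw [← sub_eq_zero, ← sub_sub]
    exact h5
  let L : 𝟙_ T ⟶ 𝟙_ T ⊗ C := (redC i).app (𝟙_ T)
  have h7 : ra ≫ X.c 0 = a ≫ U.bd 0 (𝟙_ T) ≫ L⟦(1 : ℤ)⟧' := by
    have h8 := (mapUnit Y (redC i)).comm_c 0
    exact (Category.assoc _ _ _).trans (congrArg (fun f => a ≫ f) h8.symm)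
  refine ⟨k, ?_⟩
  have h8 : y ≫ ((λ_ C).inv)⟦(1 : ℤ)⟧' = k • (a ≫ U.bd 0 (𝟙_ T) ≫ L⟦(1 : ℤ)⟧') := by
    rw [← h7]
    change y0 = k • (ra ≫ X.c 0)
    rw [hg, h6, Preadditive.add_comp, Preadditive.zsmul_comp, Category.assoc,
      X.b_c, comp_zero, add_zero]
  have h9 : L ≫ (λ_ C).hom = i := by
    change ((ρ_ (𝟙_ T)).inv ≫ (𝟙_ T ◁ i)) ≫ (λ_ C).hom = i
    rw [Category.assoc, leftUnitor_naturality, unitors_equal, Iso.inv_hom_id_assoc]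
  have h10 : y = (y ≫ ((λ_ C).inv)⟦(1 : ℤ)⟧') ≫ ((λ_ C).hom)⟦(1 : ℤ)⟧' := by
    rw [Category.assoc, ← Functor.map_comp, Iso.inv_hom_id, CategoryTheory.Functor.map_id,
      Category.comp_id]
  rw [h10, h8, Preadditive.zsmul_comp, Category.assoc, Category.assoc, ← Functor.map_comp, h9]

end Vale.Agent.P257.H709
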