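import Vale.Agent.P257.H709.PowT
import Vale.Agent.P257.H709.AlphaGen
import Vale.Agent.P257.H709.ModPProd

/-!
# P257 / H709: the relation `β₁^p α₁ = 0 mod p` in smash form

`exists_div_of_pow` : if the external powers of the maps `f : ℂ^(n+m) ⟶ ℂ^n` annihilate, up to
the factor `m`, some nonzero element `o` of `π_{2p-3} (S/p)`, then the smash product of `p` copies of a
map `β : 𝟙⟦2w⟧ ⟶ 𝟙⟦1⟧⟦1⟧`, `w = p (p-1)`, and of `α₁` is divisible by `p`.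
-/

open CategoryTheory MonoidalCategory Limits Pretriangulated
open Vale.Agent.P251 Vale.Agent.P251.G Vale.Agent.P251.G.LC Vale.Agent.P251.I Vale.Agent.P251.T
open Vale.Agent.P251.M Vale.Agent.P251.S Vale.Agent.P251.F Vale.Agent.P251.B
open Vale.Agent.P257.H762

universe v u

namespace Vale.Agent.P257.H709

section

variable {T : Type u} [Category.{v} T] [Preadditive T] [HasZeroObject T]
    [HasShift T ℤ] [∀ n : ℤ, (shiftFunctor T n).Additive] [Pretriangulated T]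
    [MonoidalCategory T] [SymmetricCategory T] [TensorTriangulated T]

omit [Preadditive T] [HasZeroObject T] [HasShift T ℤ] [∀ n : ℤ, (shiftFunctor T n).Additive]
  [Pretriangulated T] [SymmetricCategory T] [TensorTriangulated T] in
lemma AI_tSm_congr {A B A' B' : T} {b : A ⟶ B} {b' : A' ⟶ B'} (h : AI b b') (n : ℕ) :
    AI (tSm (𝟙 (𝟙_ T)) b n) (tSm (𝟙 (𝟙_ T)) b' n) := by
  induction n with
  | zero => exact AI.refl _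
  | succ n ih => exact ih.tensor h

lemma tensorHom_zsmul' {A B A' B' : T} (n : ℤ) (f : A ⟶ B) (g : A' ⟶ B') :
    f ⊗ₘ (n • g) = n • (f ⊗ₘ g) := by
  rw [tensorHom_def, tensorHom_def, whiskerLeft_zsmul', Preadditive.comp_zsmul]

omit [HasZeroObject T] [HasShift T ℤ] [∀ n : ℤ, (shiftFunctor T n).Additive]
  [Pretriangulated T] [MonoidalCategory T] [SymmetricCategory T] [TensorTriangulated T] in
lemma AI_zsmul {A B A' B' : T} {f : A ⟶ B} {g : A' ⟶ B'} (h : AI f g) {n : ℤ} (h0 : n • f = 0) :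
    n • g = 0 := by
  obtain ⟨a, b, e⟩ := h
  rw [← cancel_epi a.hom, Preadditive.comp_zsmul, ← e, ← Preadditive.zsmul_comp, h0, zero_comp,
    comp_zero]

lemma redC_shift {C : T} (i : 𝟙_ T ⟶ C) (X : T) :
    ∃ e : X ⊗ C⟦(1 : ℤ)⟧ ⟶ (X ⊗ (𝟙_ T)⟦(1 : ℤ)⟧) ⊗ C,
      (redC i).app (X ⊗ (𝟙_ T)⟦(1 : ℤ)⟧) = (X ◁ i⟦(1 : ℤ)⟧') ≫ e := by
  have h1 : (redC i).app ((𝟙_ T)⟦(1 : ℤ)⟧) =
      ((redC i).app (𝟙_ T))⟦(1 : ℤ)⟧' ≫ ((tensorRight C).commShiftIso (1 : ℤ)).inv.app (𝟙_ T) := by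
    have h := NatTrans.shift_app_comm (redC i) (1 : ℤ) (𝟙_ T)
    rw [Functor.commShiftIso_id_hom_app] at h
    have h2 : (redC i).app ((𝟙_ T)⟦(1 : ℤ)⟧) ≫ ((tensorRight C).commShiftIso (1 : ℤ)).hom.app (𝟙_ T) =
      ((redC i).app (𝟙_ T))⟦(1 : ℤ)⟧' := h.symm.trans (Category.id_comp _)
    rw [← h2, Category.assoc, Iso.hom_inv_id_app]
    exact (Category.comp_id _).symm
  have h2 : (redC i).app (𝟙_ T) = i ≫ (λ_ C).inv := by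
    rw [redC_app, Iso.eq_comp_inv, Category.assoc, leftUnitor_naturality, unitors_equal,
      Iso.inv_hom_id_assoc]
  have h3 : (redC i).app (X ⊗ (𝟙_ T)⟦(1 : ℤ)⟧) =
      (X ◁ (redC i).app ((𝟙_ T)⟦(1 : ℤ)⟧)) ≫ (α_ X ((𝟙_ T)⟦(1 : ℤ)⟧) C).inv := by
    rw [redC_app, redC_app]
    change _ = (X ◁ ((ρ_ ((𝟙_ T)⟦(1 : ℤ)⟧)).inv ≫ ((𝟙_ T)⟦(1 : ℤ)⟧ ◁ i))) ≫ _
    simp
  refine ⟨X ◁ (((λ_ C).inv)⟦(1 : ℤ)⟧' ≫
    ((tensorRight C).commShiftIso (1 : ℤ)).inv.app (𝟙_ T)) ≫ (α_ X ((𝟙_ T)⟦(1 : ℤ)⟧) C).inv, ?_⟩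
  rw [h3, h1, h2, Functor.map_comp, Category.assoc, MonoidalCategory.whiskerLeft_comp,
    Category.assoc]

end

section

variable {T : Type u} [Category.{v} T] [Preadditive T] [HasZeroObject T]
    [HasShift T ℤ] [∀ n : ℤ, (shiftFunctor T n).Additive] [Pretriangulated T]
    [MonoidalCategory T] [SymmetricCategory T] [TensorTriangulated T] [HasCoproducts.{0} T]
    [MonoidalClosed T] [IsTriangulated T] [HasProducts.{0} T] [StableCat T] (F : SpaceFunctor T)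
  (D : MUData T) (U : UnitCof D.R) {p : ℕ} [Fact p.Prime] (hp : p ≠ 2)
  {C : T} {i : 𝟙_ T ⟶ C} {δ : C ⟶ (𝟙_ T)⟦(1 : ℤ)⟧}
  (hC : Triangle.mk ((p : ℤ) • 𝟙 (𝟙_ T)) i δ ∈ distTriang T)

include F D hp hC

/-- **The relation** `β₁^p α₁ = 0 mod p` for the smash product of maps of spheres. -/
theorem exists_div_of_pow {v w : ℤ} (hv : v = (p - 1 : ℕ)) (hw : w = (p * (p - 1) : ℕ))
    {t : Cob Laz 1} (ht : IsT1 p t) (htw : Cob.IsWt v t)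
    (a : (𝟙_ T)⟦2 * v⟧ ⟶ U.cobar.B 1 (𝟙_ T))
    (ha : ((sphE T v).inv ≫ D.phi U 1 v ⟨t, htw⟩) ≫ U.cobar.q 1 (𝟙_ T) = a ≫ unitMap D.R _)
    (β : (𝟙_ T)⟦2 * w⟧ ⟶ ((𝟙_ T)⟦(1 : ℤ)⟧)⟦(1 : ℤ)⟧)
    {O O' : T} (o : O ⟶ O') (eO : O ≅ (𝟙_ T)⟦2 * v⟧) (eO' : O' ≅ C⟦(1 : ℤ)⟧) (ho : o ≠ 0)
    (h4 : ∀ (n m : ℕ) (f : LC.of (Fin n ⊕ Fin m → ℂ) ⟶ LC.of (Fin n → ℂ))
      (hX : FC (powObj (Fin p) (LC.of (Fin n ⊕ Fin m → ℂ))))
      (hY : FC (powObj (Fin p) (LC.of (Fin n → ℂ)))),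
      (m : ℤ) • (F.S.map (FCat.hom (X := ⟨_, hX⟩) (Y := ⟨_, hY⟩) (powHom (Fin p) f)) ⊗ₘ o) = 0) :
    ∃ g, (p : ℤ) • g = tSm (𝟙 (𝟙_ T)) β p ⊗ₘ (a ≫ U.bd 0 (𝟙_ T)) := by
  have hp2 := (Fact.out : p.Prime).two_le
  have hp3 : 3 ≤ p := by omega
  have hpw : 6 ≤ p * (p - 1) := by
    have : 2 ≤ p - 1 := by omega
    nlinarith
  have hp3' : (3 : ℤ) ≤ p := by exact_mod_cast hp3
  -- realization of `β`
  obtain ⟨m, hm⟩ : ∃ m : ℕ, p * (p - 1) = m + 1 := ⟨p * (p - 1) - 1, by omega⟩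
  obtain ⟨n, f, k, hX, hY, hf⟩ := exists_real F (m := m)
    (eqToIso (by rw [hw, hm]; push_cast; rfl) : (𝟙_ T)⟦2 * w⟧ ≅ (𝟙_ T)⟦((2 * (m + 1) : ℕ) : ℤ)⟧)
    ((shiftFunctorAdd' T (1 : ℤ) 1 ((2 : ℕ) : ℤ) (by norm_num)).symm.app (𝟙_ T)) β
  have hXp := fc_powObj hX p
  have hYp := fc_powObj hY p
  obtain ⟨l, ⟨eZ⟩⟩ := exists_tS_iso (Iso.refl ((𝟙_ T)⟦k⟧)) p
  let P := tSm (𝟙 (𝟙_ T)) β p
  let o' : (𝟙_ T)⟦2 * v⟧ ⟶ C⟦(1 : ℤ)⟧ := eO.inv ≫ o ≫ eO'.hom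
  have hoo : AI o o' := ⟨eO, eO', by simp [o']⟩
  have h1 : AI (F.S.map (FCat.hom (X := ⟨_, hXp⟩) (Y := ⟨_, hYp⟩) (powHom (Fin p) f)))
      (P ⊗ₘ 𝟙 ((𝟙_ T)⟦l⟧)) :=
    (AI_map_pow F hX hY f p hXp hYp).trans ((AI_tSm_congr hf p).trans
      ((AI_tSm_tensor_id β _ p).trans ((AI.refl _).tensor ⟨eZ, eZ, by simp⟩)))
  have h2 : AI ((P ⊗ₘ 𝟙 ((𝟙_ T)⟦l⟧)) ⊗ₘ o') ((P ⊗ₘ o') ⊗ₘ 𝟙 ((𝟙_ T)⟦l⟧)) :=
    (AI.assoc _ _ _).trans (((AI.refl P).tensor (AI.braid _ _)).trans (AI.assoc _ _ _).symm)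
  have h3 := AI_zsmul ((h1.tensor hoo).trans h2) (h4 (n + 1) m f hXp hYp)
  have h5 : (m : ℤ) • (P ⊗ₘ o') = 0 := by
    apply eq_zero_of_whiskerRight_shift _ l
    rw [whiskerRight_zsmul', ← tensorHom_id]
    exact h3
  -- the generator
  obtain ⟨k', hk'⟩ := pi_gen D U hp hC hv ht htw a ha o'
  have hpi : (p : ℤ) • (a ≫ U.bd 0 (𝟙_ T) ≫ i⟦(1 : ℤ)⟧') = 0 := by
    rw [← Preadditive.comp_zsmul, ← Preadditive.comp_zsmul, ← Functor.map_zsmul, zsmul_unit hC,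
      Functor.map_zero, comp_zero, comp_zero]
  have ho' : o' ≠ 0 := fun h => ho (hoo.eq_zero h)
  have hpk : ¬ (p : ℤ) ∣ k' := by
    rintro ⟨r, rfl⟩
    apply ho'
    rw [hk', mul_comm (p : ℤ) r, mul_smul, hpi, smul_zero]
  have hpm : ¬ (p : ℤ) ∣ (m : ℤ) := by
    rintro ⟨r, hr⟩
    have h6 : (p : ℤ) * (p - 1) = m + 1 := by
      have := congrArg (Nat.cast : ℕ → ℤ) hm
      rw [Nat.cast_mul, Nat.cast_sub (by omega)] at this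
      push_cast at this
      exact this
    have h7 : (p : ℤ) ∣ 1 := ⟨(p : ℤ) - 1 - r, by rw [hr] at h6; linarith⟩
    have h8 := Int.le_of_dvd one_pos h7
    omega
  have hprime : Prime (p : ℤ) := Nat.prime_iff_prime_int.1 Fact.out
  have hcop : IsCoprime (p : ℤ) ((m : ℤ) * k') := by
    rw [hprime.coprime_iff_not_dvd]
    intro h
    exact (hprime.dvd_or_dvd h).elim hpm hpk
  let Q := P ⊗ₘ (a ≫ U.bd 0 (𝟙_ T) ≫ i⟦(1 : ℤ)⟧')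
  have hQ1 : (p : ℤ) • Q = 0 := by
    rw [← tensorHom_zsmul', hpi]
    exact MonoidalPreadditive.tensor_zero _
  have hQ2 : ((m : ℤ) * k') • Q = 0 := by
    rw [mul_smul, ← tensorHom_zsmul', ← hk']
    exact h5
  have hQ : Q = 0 := by
    obtain ⟨r, s, hrs⟩ := hcop
    have h6 : (r * (p : ℤ) + s * ((m : ℤ) * k')) • Q = 0 := by
      rw [add_smul, mul_smul r, hQ1, mul_smul s, hQ2, smul_zero, smul_zero, add_zero]
    have h7 := congrArg (fun n : ℤ => n • Q) hrs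
    exact (one_zsmul Q).symm.trans (h7.symm.trans h6)
  obtain ⟨e, he⟩ := redC_shift i (tS (𝟙_ T) (((𝟙_ T)⟦(1 : ℤ)⟧)⟦(1 : ℤ)⟧) p)
  have h6 : (P ⊗ₘ (a ≫ U.bd 0 (𝟙_ T))) ≫ (redC i).app _ = 0 := by
    have h7 : Q = (P ⊗ₘ (a ≫ U.bd 0 (𝟙_ T))) ≫ (_ ◁ i⟦(1 : ℤ)⟧') := by
      change P ⊗ₘ (a ≫ U.bd 0 (𝟙_ T) ≫ i⟦(1 : ℤ)⟧') = _
      rw [← Category.assoc, ← id_tensorHom, tensorHom_comp_tensorHom, Category.comp_id]
    have h8 := congrArg (fun g => g ≫ e) h7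
    simp only [Category.assoc] at h8
    rw [← he, hQ, zero_comp] at h8
    exact h8.symm
  exact exists_zsmul_of_red hC _ h6

end

end Vale.Agent.P257.H709
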