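import Vale.Agent.P251.F.F3Laz

/-!
# P257 / H709: cochains of degree zero over `Laz`, modulo `p`
-/

namespace Vale.Agent.P257.H709

open Vale.Agent.P251.F Vale.Agent.P251.I

/-- A `0`-cochain over `Laz` of weight `w` which is a cocycle modulo `p` is zero modulo `p`, except
in the non-negative weights divisible by `p - 1`. -/
theorem exists_of_cocycle_modP_zero (p : ℕ) [Fact p.Prime] (hp2 : p ≠ 2) {w : ℤ}
    (hw : ¬ (((p : ℤ) - 1) ∣ w ∧ 0 ≤ w)) {z : Cob Laz 0}
    (hz : Cob.IsWt w z) {y : Cob Laz 1} (hd : Cob.d 0 z = (p : ℤ) • y) :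
    ∃ u : Cob Laz 0, Cob.IsWt w u ∧ z = (p : ℤ) • u := by
  have hπ := isLawHom_mkLP p
  have hp0 : (p : LP p) = 0 := by
    rw [← map_natCast (Ideal.Quotient.mk (Ideal.span {(p : Laz)}))]
    exact Ideal.Quotient.eq_zero_iff_mem.2 (Ideal.mem_span_singleton_self _)
  have hpc : ∀ (n : ℕ) (c : Cob (LP p) n), (p : ℤ) • c = 0 := by
    intro n c
    have h : ((p : ℕ) : Cob (LP p) n) = 0 := by
      rw [← map_natCast (MvPolynomial.C : LP p →+* Cob (LP p) n), hp0, map_zero]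
    rw [zsmul_eq_mul, Int.cast_natCast, h, zero_mul]
  have h1 : Cob.d 0
      (Cob.mapRing (Ideal.Quotient.mk (Ideal.span {(p : Laz)})) 0 z) = 0 := by
    rw [← Cob.mapRing_d hπ, hd, map_zsmul, hpc]
  exact exists_of_mapRing_mk_eq_zero p hz ((F3_holds p hp2 w).1 _ (hz.mapRing hπ) h1 hw)

end Vale.Agent.P257.H709
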