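import Vale.Agent.P251.F.F3Laz
import Vale.Agent.P251.F.DetectT

/-!
# P257 / H709: `H^1 (Laz/p)` in weight `p - 1` is spanned by the class of `t_1`
-/

noncomputable section

namespace Vale.Agent.P257.H709

open Vale.Agent.P251.F Vale.Agent.P251.I Vale.Agent.P251.F.F3 LawRing
open scoped LaurentPolynomial

variable {N : Type} [CommRing N] [LawRing N] {B : Type} [CommRing B]
  {p : ℕ} [hpp : Fact p.Prime]

/-- the leading coefficient of a function of weight `p - 1` on chains of length one -/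
def kap (p : ℕ) (z : Cob N 1) : N :=
  MvPolynomial.coeff (Finsupp.single ((0 : Fin 1), p - 2) 1) (toArr z)

omit hpp in
/-- A normalized function of weight `p - 1` on chains of length one whose arrow has coefficients in
weights `≥ p - 1` only. -/
theorem evSeq_leading (hp3 : 3 ≤ p) (hN : NoNeg N) {z : Cob N 1}
    (hw : Cob.IsWt ((p - 1 : ℕ) : ℤ) z) (hz : Nm 1 z) (x : N →+* B)
    {f : ℕ → strict B} (hf : ∀ m, m + 1 < p - 1 → (f 0 : InvSeries B).c (m + 1) = 0) :
    evSeq x z (prodSeq f) = x (kap p z) * (f 0 : InvSeries B).c (p - 1) := by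
  rw [← evArr_toArr, evArr, MvPolynomial.coe_eval₂Hom, MvPolynomial.eval₂_eq]
  rw [Finset.sum_eq_single (Finsupp.single ((0 : Fin 1), p - 2) 1)]
  · have h1 : (Finsupp.single ((0 : Fin 1), p - 2) 1).support = {((0 : Fin 1), p - 2)} :=
      Finsupp.support_single _ one_ne_zero
    rw [h1, Finset.prod_singleton, Finsupp.single_eq_same, pow_one, kap]
    have h2 : p - 2 + 1 = p - 1 := by omega
    rw [h2]
    rfl
  · intro μ hμ hne
    rw [MvPolynomial.mem_support_iff] at hμ
    have h1 := wtm_le hN hw hμ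
    obtain ⟨m, hm⟩ : ∃ m, μ ((0 : Fin 1), m) ≠ 0 := by
      by_contra h
      push Not at h
      exact hμ (coeff_toArr_eq_zero hz (0 : Fin 1) μ h)
    have hmem : ((0 : Fin 1), m) ∈ μ.support := Finsupp.mem_support_iff.2 hm
    by_cases hlt : m + 1 < p - 1
    · rw [Finset.prod_eq_zero hmem, mul_zero]
      rw [show (((0 : Fin 1), m) : Fin 1 × ℕ).1 = (0 : Fin 1) from rfl]
      change ((f 0 : InvSeries B).c (m + 1)) ^ _ = 0
      rw [hf m hlt, zero_pow hm]
    · exfalso
      have h2 : wtm μ = μ ((0 : Fin 1), m) * (m + 1) +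
          ∑ km ∈ μ.support.erase ((0 : Fin 1), m), μ km * (km.2 + 1) := by
        rw [wtm, Finsupp.sum, ← Finset.add_sum_erase _ _ hmem]
      have h3 : wtm μ ≤ p - 1 := by exact_mod_cast h1
      have h4 : 1 ≤ μ ((0 : Fin 1), m) := Nat.one_le_iff_ne_zero.2 hm
      have h4' : μ ((0 : Fin 1), m) * (m + 1) ≤ p - 1 := le_trans (by rw [h2]; exact Nat.le_add_right _ _) h3
      have h5 : μ ((0 : Fin 1), m) = 1 := by
        by_contra hcon
        have h6 : 2 * (m + 1) ≤ μ ((0 : Fin 1), m) * (m + 1) :=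
          Nat.mul_le_mul_right _ (by omega)
        omega
      rw [h5] at h2
      have h6 : m = p - 2 := by omega
      have h7 : μ.support.erase ((0 : Fin 1), m) = ∅ := by
        by_contra hcon
        obtain ⟨km, hkm⟩ := Finset.nonempty_iff_ne_empty.2 hcon
        have h8 : 1 ≤ μ km * (km.2 + 1) :=
          Nat.one_le_iff_ne_zero.2 (mul_ne_zero
            (Finsupp.mem_support_iff.1 (Finset.mem_of_mem_erase hkm)) (Nat.succ_ne_zero _))
        have h9 := Finset.single_le_sum (f := fun km => μ km * (km.2 + 1))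
          (fun _ _ => Nat.zero_le _) hkm
        have h10 := le_trans h8 h9
        omega
      apply hne
      ext km
      by_cases hkm : km = ((0 : Fin 1), m)
      · rw [hkm, h5, h6, Finsupp.single_eq_same]
      · rw [← h6, Finsupp.single_eq_of_ne hkm]
        by_contra h8
        have : km ∈ μ.support.erase ((0 : Fin 1), m) :=
          Finset.mem_erase.2 ⟨hkm, Finsupp.mem_support_iff.2 h8⟩
        rw [h7] at this
        exact absurd this (Finset.notMem_empty _)
  · intro h
    rw [MvPolynomial.notMem_support_iff.1 h, map_zero, zero_mul]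

/-- the elements of weight zero of `Laz/p` are integers -/
theorem lp_weight_zero (p : ℕ) {a : LP p}
    (ha : act (InvSeries.lin (uT (LP p)))⁻¹ (LaurentPolynomial.C : LP p →+* (LP p)[T;T⁻¹]) a =
      LaurentPolynomial.C a) : ∃ k : ℤ, a = k := by
  obtain ⟨b, rfl⟩ := Ideal.Quotient.mk_surjective a
  let S : Subring (LP p)[T;T⁻¹] :=
    (Subring.comap (Polynomial.constantCoeff : Polynomial (LP p) →+* LP p)
      (Int.castRingHom (LP p)).range).map Polynomial.toLaurent
  have h1 : act (InvSeries.lin (uT (LP p)))⁻¹ (LaurentPolynomial.C : LP p →+* (LP p)[T;T⁻¹])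
      (Ideal.Quotient.mk _ b) ∈ S := by
    change Laz.lift ((InvSeries.lin (uT (LP p)))⁻¹ • Laz.univ.map
      ((LaurentPolynomial.C : LP p →+* (LP p)[T;T⁻¹]).comp (Ideal.Quotient.mk _))) b ∈ _
    refine lift_mem _ (fun i j => ?_) b
    rw [coeff_lin_inv_smul]
    have h1 : (Finsupp.single (0 : Fin 2) (i + 1) + Finsupp.single 1 (j + 1) : Fin 2 →₀ ℕ) 0 +
        (Finsupp.single (0 : Fin 2) (i + 1) + Finsupp.single 1 (j + 1) : Fin 2 →₀ ℕ) 1 =
        1 + (i + j + 1) := by
      simp
      ring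
    rw [h1, pow_add, pow_one, mul_assoc, ← mul_assoc, Units.inv_mul, one_mul]
    refine ⟨Polynomial.X ^ (i + j + 1) * Polynomial.C (Ideal.Quotient.mk _ (Laz.a i j)), ?_, ?_⟩
    · change _ ∈ (Int.castRingHom (LP p)).range
      refine ⟨0, ?_⟩
      rw [map_zero, map_mul, map_pow, Polynomial.constantCoeff_apply, Polynomial.coeff_X_zero,
        zero_pow (Nat.succ_ne_zero _), zero_mul]
    · rw [map_mul, map_pow, Polynomial.toLaurent_X, Polynomial.toLaurent_C, Law.map_ps,
        MvPowerSeries.coeff_map, Laz.coeff_univ]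
      rfl
  rw [ha] at h1
  obtain ⟨q, hq, hq2⟩ := h1
  have h2 : q = Polynomial.C (Ideal.Quotient.mk _ b) := by
    apply Polynomial.toLaurent_injective
    rw [hq2, Polynomial.toLaurent_C]
  rw [h2] at hq
  obtain ⟨k, hk⟩ : Polynomial.constantCoeff (Polynomial.C (Ideal.Quotient.mk _ b)) ∈
    (Int.castRingHom (LP p)).range := hq
  refine ⟨k, ?_⟩
  rw [Polynomial.constantCoeff_apply, Polynomial.coeff_C_zero] at hk
  exact hk.symm

omit hpp in
theorem kap_int (hp3 : 3 ≤ p) {z : Cob (LP p) 1} (hw : Cob.IsWt ((p - 1 : ℕ) : ℤ) z) :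
    ∃ k : ℤ, kap p z = k := by
  apply lp_weight_zero
  have h := coeff_weight hw (LaurentPolynomial.C : LP p →+* (LP p)[T;T⁻¹]) (uT (LP p))
    (Finsupp.single ((0 : Fin 1), p - 2) 1)
  have h1 : wtm (Finsupp.single ((0 : Fin 1), p - 2) 1) = p - 1 := by
    rw [wtm, Finsupp.sum_single_index (by rw [zero_mul]), one_mul]
    omega
  rw [h1, zpow_natCast, Units.val_pow_eq_pow_val, mul_comm] at h
  exact (((uT (LP p)).isUnit.pow (p - 1)).mul_right_inj).1 h

/-- `rOp` of normalized functions of weight `p - 1` depends on the leading coefficient only. -/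
theorem ev_rOp_leading [PNil p N] (hp3 : 3 ≤ p) (hN : NoNeg N) [PNil p B] (c : Chain N 1 B) :
    ∃ (x : N →+* B) (b : B), ∀ z : Cob N 1, Cob.IsWt ((p - 1 : ℕ) : ℤ) z → Nm 1 z →
      Cob.ev c (rOp p 1 z) = x (kap p z) * b := by
  set x := c.pt with hx
  set V := seq c with hV
  refine ⟨act (uSeq p x V 0 : InvSeries B) x,
    ((uSeq p x V (0 + 1) * (uSeq p x V 0)⁻¹ : strict B) : InvSeries B).c (p - 1),
    fun z hw hz => ?_⟩
  rw [ev_rOp, typC]
  change evSeq _ _ _ = _
  rw [evSeq_eq_prodSeq]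
  refine evSeq_leading hp3 hN hw hz _ (f := fun k => uSeq p x V (k + 1) * (uSeq p x V k)⁻¹)
    fun m hm => ?_
  refine c_eq_zero_of_conj (p := p) ?_ (fun hd => ?_)
  · rw [Subgroup.coe_mul, Subgroup.coe_inv]
    have h := lin_conj (p := p) ((V (0 + 1) : InvSeries B) * (V 0 : InvSeries B)⁻¹)
      ((V 0 : InvSeries B) • (law : Law N).map x)
    rw [smul_smul, inv_mul_cancel_right] at h
    have h2 : (uSeq p x V (0 + 1) : InvSeries B) * (uSeq p x V 0 : InvSeries B)⁻¹ =
        tyS p ((V (0 + 1) : InvSeries B) • (law : Law N).map x) *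
          ((V (0 + 1) : InvSeries B) * (V 0 : InvSeries B)⁻¹) *
          (tyS p ((V 0 : InvSeries B) • (law : Law N).map x))⁻¹ := by
      rw [val_uSeq, val_uSeq]
      group
    rw [← h2] at h
    generalize (uSeq p x V (0 + 1) : InvSeries B) * (uSeq p x V 0 : InvSeries B)⁻¹ = W at h ⊢
    generalize InvSeries.lin (etaU p B) = l at h ⊢
    calc l⁻¹ * W * l = l⁻¹ * (l * W * l⁻¹) * l := by rw [h]
      _ = W := by group
  · have := Nat.le_of_dvd (by omega) hd
    omega

end Vale.Agent.P257.H709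

end
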