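import Vale.Agent.P257.H762.AI
import Vale.Agent.P251.Q.ExtPow
import Vale.Agent.P251.M.Rep
import Vale.Agent.P251.M.SpaceConn
import Mathlib.LinearAlgebra.Complex.FiniteDimensional
import Mathlib.Topology.Algebra.Module.FiniteDimension

/-!
# P257 / H709: suspension spectra of external powers of maps

* `AI_map_pow` : `F.S.map (powHom (Fin n) f)` is isomorphic, as an arrow, to the `n`-fold smash
  power of `F.S.map f`;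
* `exists_real` : a map `β : A ⟶ B` with `A ≅ 𝟙⟦2 (m+1)⟧`, `B ≅ 𝟙⟦2⟧` is, after smashing with an
  even sphere, isomorphic to `F.S.map f` for a map `f : ℂ^(1+n+m) ⟶ ℂ^(1+n)` of spaces.
-/

open CategoryTheory MonoidalCategory Limits Pretriangulated
open Vale.Agent.P251 Vale.Agent.P251.G Vale.Agent.P251.G.LC Vale.Agent.P251.I Vale.Agent.P251.T
open Vale.Agent.P251.M Vale.Agent.P257.H762
open Functor.OplaxMonoidal Functor.LaxMonoidal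

universe v u

namespace Vale.Agent.P257.H709

noncomputable section

section AI

variable {C : Type*} [Category* C] {D : Type*} [Category* D]

lemma AI_map (F : C ⥤ D) {A B A' B' : C} {f : A ⟶ B} {g : A' ⟶ B'} (h : AI f g) :
    AI (F.map f) (F.map g) := by
  obtain ⟨a, b, e⟩ := h
  exact ⟨F.mapIso a, F.mapIso b, by
    rw [Functor.mapIso_hom, Functor.mapIso_hom, ← F.map_comp, e, F.map_comp]⟩

lemma AI_hom {X Y X' Y' : FCat} {f : X.obj ⟶ Y.obj} {g : X'.obj ⟶ Y'.obj} (h : AI f g) :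
    AI (FCat.hom f : X ⟶ Y) (FCat.hom g : X' ⟶ Y') := by
  obtain ⟨a, b, e⟩ := h
  exact ⟨fcIso a, fcIso b, by apply ObjectProperty.hom_ext; exact e⟩

end AI

variable {T : Type u} [Category.{v} T] [Preadditive T] [HasZeroObject T]
    [HasShift T ℤ] [∀ n : ℤ, (shiftFunctor T n).Additive] [Pretriangulated T]
    [MonoidalCategory T] [SymmetricCategory T] [TensorTriangulated T] (F : SpaceFunctor T)

lemma AI_S_tensor {A B A' B' : FCat} (f : A ⟶ B) (g : A' ⟶ B') :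
    AI (F.S.map (f ⊗ₘ g)) (F.S.map f ⊗ₘ F.S.map g) :=
  ⟨(Functor.Monoidal.μIso F.S A A').symm, (Functor.Monoidal.μIso F.S B B').symm, by
    change F.S.map (f ⊗ₘ g) ≫ δ F.S B B' = δ F.S A A' ≫ (F.S.map f ⊗ₘ F.S.map g)
    rw [δ_natural]⟩

/-- Powers of finite cell spaces. -/
lemma fc_powObj {X : LC} (hX : FC X) (n : ℕ) : FC (powObj (Fin n) X) := by
  induction n with
  | zero => exact FC.unit.of_iso (Q.nilIso X).symm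
  | succ n ih => exact (hX.tensor ih).of_iso (Q.consIso n X).symm

/-- The suspension spectrum of an external power of a map. -/
theorem AI_map_pow {X Y : LC} (hX : FC X) (hY : FC Y) (f : X ⟶ Y) (n : ℕ)
    (hXn : FC (powObj (Fin n) X)) (hYn : FC (powObj (Fin n) Y)) :
    AI (F.S.map (FCat.hom (X := ⟨_, hXn⟩) (Y := ⟨_, hYn⟩) (powHom (Fin n) f)))
      (tSm (𝟙 (𝟙_ T)) (F.S.map (FCat.hom (X := ⟨X, hX⟩) (Y := ⟨Y, hY⟩) f)) n) := by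
  induction n with
  | zero =>
    have h1 : AI (FCat.hom (X := ⟨_, hXn⟩) (Y := ⟨_, hYn⟩) (powHom (Fin 0) f))
        (𝟙 (𝟙_ FCat)) := by
      have : AI (powHom (Fin 0) f) (𝟙 (𝟙_ LC)) := ⟨Q.nilIso X, Q.nilIso Y, by
        rw [Q.powHom_nilIso, Category.comp_id]⟩
      exact AI_hom (X := ⟨_, hXn⟩) (Y := ⟨_, hYn⟩) (X' := 𝟙_ FCat) (Y' := 𝟙_ FCat) this
    have h2 := AI_map F.S h1
    rw [F.S.map_id] at h2
    exact h2.trans ⟨(Functor.Monoidal.εIso F.S).symm, (Functor.Monoidal.εIso F.S).symm, by simp⟩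
  | succ n ih =>
    have hXn' := fc_powObj hX n
    have hYn' := fc_powObj hY n
    have h1 : AI (FCat.hom (X := ⟨_, hXn⟩) (Y := ⟨_, hYn⟩) (powHom (Fin (n + 1)) f))
        (FCat.hom (X := ⟨X, hX⟩) (Y := ⟨Y, hY⟩) f ⊗ₘ
          FCat.hom (X := ⟨_, hXn'⟩) (Y := ⟨_, hYn'⟩) (powHom (Fin n) f)) := by
      have : AI (powHom (Fin (n + 1)) f) (f ⊗ₘ powHom (Fin n) f) :=
        ⟨Q.consIso n X, Q.consIso n Y, Q.powHom_consIso n f⟩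
      exact AI_hom (X := ⟨_, hXn⟩) (Y := ⟨_, hYn⟩) (X' := ⟨X, hX⟩ ⊗ ⟨_, hXn'⟩)
        (Y' := ⟨Y, hY⟩ ⊗ ⟨_, hYn'⟩) this
    exact ((AI_map F.S h1).trans (AI_S_tensor F _ _)).trans
      (((AI.refl _).tensor (ih hXn' hYn')).trans (AI.braid _ _))

/-! ### realization by a map of spaces -/

/-- `ℝ^N ≅ ℂ^I` if `N = 2 |I|`. -/
def sphC (N : ℕ) (I : Type) [Fintype I] (h : N = 2 * Fintype.card I) :
    Sph N ≅ LC.of (I → ℂ) :=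
  ofHomeo (X := Sph N) (Y := LC.of (I → ℂ))
    (ContinuousLinearEquiv.ofFinrankEq (𝕜 := ℝ) (E := Fin N → ℝ) (F := I → ℂ) (by
      rw [Module.finrank_pi, Fintype.card_fin, Module.finrank_pi_fintype]
      simp [Complex.finrank_real_complex, h, mul_comm])).toHomeomorph

omit [HasZeroObject T] [∀ (n : ℤ), (shiftFunctor T n).Additive] [Pretriangulated T]
  [TensorTriangulated T] in
lemma AI_interchange {A B A' B' C D C' D' : T} (f : A ⟶ B) (g : A' ⟶ B') (h : C ⟶ D)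
    (k : C' ⟶ D') : AI ((f ⊗ₘ g) ⊗ₘ (h ⊗ₘ k)) ((f ⊗ₘ h) ⊗ₘ (g ⊗ₘ k)) := by
  have h1 : AI (g ⊗ₘ (h ⊗ₘ k)) (h ⊗ₘ (g ⊗ₘ k)) :=
    (AI.assoc g h k).symm.trans (((AI.braid g h).tensor (AI.refl k)).trans (AI.assoc h g k))
  exact (AI.assoc f g _).trans (((AI.refl f).tensor h1).trans (AI.assoc f h _).symm)

lemma AI_tSm_tensor_id {A B : T} (b : A ⟶ B) (Z : T) (n : ℕ) :
    AI (tSm (𝟙 (𝟙_ T)) (b ⊗ₘ 𝟙 Z) n) (tSm (𝟙 (𝟙_ T)) b n ⊗ₘ 𝟙 (tS (𝟙_ T) Z n)) := by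
  induction n with
  | zero => exact (AI.unit_right _).symm
  | succ n ih =>
    have h1 := (ih.tensor (AI.refl (b ⊗ₘ 𝟙 Z))).trans (AI_interchange _ _ _ _)
    rw [id_tensorHom_id] at h1
    exact h1

lemma exists_tS_iso {Z : T} {k : ℤ} (e : Z ≅ (𝟙_ T)⟦k⟧) (n : ℕ) :
    ∃ l : ℤ, Nonempty (tS (𝟙_ T) Z n ≅ (𝟙_ T)⟦l⟧) := by
  induction n with
  | zero => exact ⟨0, ⟨(shiftFunctorZero T ℤ).symm.app _⟩⟩
  | succ n ih =>
    obtain ⟨l, ⟨e'⟩⟩ := ih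
    exact ⟨l + k, ⟨(e' ⊗ᵢ e) ≪≫ tensorUnitShiftIso ((𝟙_ T)⟦l⟧) k ≪≫
      (shiftFunctorAdd' T l k (l + k) rfl).symm.app (𝟙_ T)⟩⟩

/-- Realization of a map of spheres by a map of spaces. -/
theorem exists_real {m : ℕ} {A B : T} (eA : A ≅ (𝟙_ T)⟦((2 * (m + 1) : ℕ) : ℤ)⟧)
    (eB : B ≅ (𝟙_ T)⟦((2 : ℕ) : ℤ)⟧) (β : A ⟶ B) :
    ∃ (n : ℕ) (f : LC.of (Fin (n + 1) ⊕ Fin m → ℂ) ⟶ LC.of (Fin (n + 1) → ℂ)) (k : ℤ)
      (hX : FC (LC.of (Fin (n + 1) ⊕ Fin m → ℂ))) (hY : FC (LC.of (Fin (n + 1) → ℂ))),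
      AI (F.S.map (FCat.hom (X := ⟨_, hX⟩) (Y := ⟨_, hY⟩) f)) (β ⊗ₘ 𝟙 ((𝟙_ T)⟦k⟧)) := by
  let g : F.S.obj (SphF (2 * (m + 1))) ⟶ F.S.obj (SphF 2) :=
    (sphIso F _).hom ≫ eA.inv ≫ β ≫ eB.hom ≫ (sphIso F _).inv
  have hg : AI g β := ⟨sphIso F _ ≪≫ eA.symm, sphIso F _ ≪≫ eB.symm, by simp [g]⟩
  obtain ⟨n, h, hh⟩ := F.full g
  let h' : (Sph (2 * (m + 1)) ⊗ Sph n) ⊗ Sph n ⟶ (Sph 2 ⊗ Sph n) ⊗ Sph n := h.hom ▷ Sph n
  let e1 : (Sph (2 * (m + 1)) ⊗ Sph n) ⊗ Sph n ≅ LC.of (Fin (n + 1) ⊕ Fin m → ℂ) :=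
    (whiskerRightIso (sphTensor _ n) (Sph n) ≪≫ sphTensor _ n) ≪≫
      sphC _ (Fin (n + 1) ⊕ Fin m) (by simp; ring)
  let e2 : (Sph 2 ⊗ Sph n) ⊗ Sph n ≅ LC.of (Fin (n + 1) → ℂ) :=
    (whiskerRightIso (sphTensor _ n) (Sph n) ≪≫ sphTensor _ n) ≪≫
      sphC _ (Fin (n + 1)) (by simp; ring)
  have hX : FC (LC.of (Fin (n + 1) ⊕ Fin m → ℂ)) :=
    (((FC.sph (2 * (m + 1))).tensor (FC.sph n)).tensor (FC.sph n)).of_iso e1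
  have hY : FC (LC.of (Fin (n + 1) → ℂ)) :=
    (((FC.sph 2).tensor (FC.sph n)).tensor (FC.sph n)).of_iso e2
  refine ⟨n, e1.inv ≫ h' ≫ e2.hom, (n : ℤ) + n, hX, hY, ?_⟩
  have h1 : AI (FCat.hom (X := ⟨_, hX⟩) (Y := ⟨_, hY⟩) (e1.inv ≫ h' ≫ e2.hom))
      (h ▷ SphF n) := by
    have : AI (e1.inv ≫ h' ≫ e2.hom) h' := ⟨e1.symm, e2.symm, by simp⟩
    exact AI_hom (X := ⟨_, hX⟩) (Y := ⟨_, hY⟩) (X' := (SphF (2 * (m + 1)) ⊗ SphF n) ⊗ SphF n)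
      (Y' := (SphF 2 ⊗ SphF n) ⊗ SphF n) this
  have h2 : AI (F.S.map (h ▷ SphF n)) (F.S.map h ⊗ₘ 𝟙 (F.S.obj (SphF n))) := by
    have := AI_S_tensor F h (𝟙 (SphF n))
    rwa [tensorHom_id, F.S.map_id] at this
  have h3 : AI (F.S.map h) (g ⊗ₘ 𝟙 (F.S.obj (SphF n))) := by
    rw [hh, tensorHom_id]
    exact ⟨(Functor.Monoidal.μIso F.S _ _).symm, (Functor.Monoidal.μIso F.S _ _).symm, by simp⟩
  have h4 : AI ((g ⊗ₘ 𝟙 (F.S.obj (SphF n))) ⊗ₘ 𝟙 (F.S.obj (SphF n)))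
      (β ⊗ₘ 𝟙 ((𝟙_ T)⟦(n : ℤ) + n⟧)) := by
    refine (AI.assoc _ _ _).trans (hg.tensor ?_)
    rw [id_tensorHom_id]
    refine ⟨(sphIso F n ⊗ᵢ sphIso F n) ≪≫ tensorUnitShiftIso ((𝟙_ T)⟦(n : ℤ)⟧) n ≪≫
      (shiftFunctorAdd' T (n : ℤ) n ((n : ℤ) + n) rfl).symm.app (𝟙_ T),
      (sphIso F n ⊗ᵢ sphIso F n) ≪≫ tensorUnitShiftIso ((𝟙_ T)⟦(n : ℤ)⟧) n ≪≫
      (shiftFunctorAdd' T (n : ℤ) n ((n : ℤ) + n) rfl).symm.app (𝟙_ T), by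
        rw [Category.id_comp, Category.comp_id]⟩
  exact (AI_map F.S h1).trans (h2.trans ((h3.tensor (AI.refl _)).trans h4))

end

end Vale.Agent.P257.H709
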