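import Vale.Agent.P257.H709.TodaRel
import Vale.Agent.P257.H319.TFinal

/-!
# P257 / H709: the relation `α₁ β₁^p = 0 mod p` from a system of families

`todaRel_of_sys` : the Prop `H545.TodaRel p D U` from a system of families with `o ≠ 0`.
-/

open CategoryTheory MonoidalCategory Limits Pretriangulated
open Vale.Agent.P251 Vale.Agent.P251.G Vale.Agent.P251.G.LC Vale.Agent.P251.I Vale.Agent.P251.T
open Vale.Agent.P251.M Vale.Agent.P251.S Vale.Agent.P251.F Vale.Agent.P251.B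
open Vale.Agent.P257.H762 Vale.Agent.P257.H319

universe v u

namespace Vale.Agent.P257.H709

variable {T : Type u} [Category.{v} T] [Preadditive T] [HasZeroObject T]
    [HasShift T ℤ] [∀ n : ℤ, (shiftFunctor T n).Additive] [Pretriangulated T] [IsTriangulated T]
    [MonoidalCategory T] [SymmetricCategory T] [TensorTriangulated T] [MonoidalClosed T]
    [HasCoproducts.{0} T] [HasProducts.{0} T] [StableCat T]

/-- **The Toda relation** from a system of families. -/
theorem todaRel_of_sys (F : SpaceFunctor T) (D : MUData T) (U : UnitCof D.R) {p : ℕ}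
    [Fact p.Prime] (hp : p ≠ 2) {C : T} {i : 𝟙_ T ⟶ C} {δ : C ⟶ (𝟙_ T)⟦(1 : ℤ)⟧}
    (hC : Triangle.mk ((p : ℤ) • 𝟙 (𝟙_ T)) i δ ∈ distTriang T)
    {A : T} {s : SplitA A (2 * (p : ℤ) - 3)} (G : Sys F (Fin p) s i)
    (ho : (G.fam Unit).o ≠ 0) : H545.TodaRel p D U := by
  intro t ht htw hb a ha x _
  have hp1 := (Fact.out : p.Prime).one_le
  exact Sys.exists_div F D U hp hC (v := (p : ℤ) - 1) (w := (p : ℤ) * ((p : ℤ) - 1))
    (by rw [Nat.cast_sub hp1, Nat.cast_one])
    (by rw [Nat.cast_mul, Nat.cast_sub hp1, Nat.cast_one]) ht htw a ha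
    (x ≫ U.bd 1 (𝟙_ T) ≫ (U.bd 0 (𝟙_ T))⟦(1 : ℤ)⟧') G ho

end Vale.Agent.P257.H709
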